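import Vale.Agent.P017.H735.Fam

/-!
# Primes with prescribed symbols; examples
-/

namespace Vale.Agent.P017.H735

open Vale.Agent.P017.H185 Finset

theorem exists_symbol {q : ℕ} (hq : q.Prime) (hq2 : q ≠ 2) {s : ℤ} (hs : s = 1 ∨ s = -1) :
    ∃ t : ℕ, jacobiSym (t : ℤ) q = s := by
  have := Fact.mk hq
  rcases hs with rfl | rfl
  · exact ⟨1, by simp⟩
  · obtain ⟨r, hr⟩ := FiniteField.exists_nonsquare (F := ZMod q) (by rwa [ZMod.ringChar_zmod_n])
    refine ⟨r.val, ?_⟩
    rw [← jacobiSym.legendreSym.to_jacobiSym, legendreSym.eq_neg_one_iff]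
    simpa using hr

theorem J_congr {x y q : ℕ} (h : x ≡ y [MOD q]) : jacobiSym (x : ℤ) q = jacobiSym (y : ℤ) q := by
  rw [jacobiSym.mod_left (x : ℤ), jacobiSym.mod_left (y : ℤ)]
  congr 1
  exact_mod_cast h

theorem exists_prime_symbols {m : ℕ} (hm : Squarefree m) (h60 : Nat.Coprime m 60) {s : ℕ → ℤ}
    (hs : ∀ q, s q = 1 ∨ s q = -1) {r : ℕ} (hr : Nat.Coprime r 60) (B : ℕ) :
    ∃ p > B, p.Prime ∧ p ≡ r [MOD 60] ∧ ∀ q ∈ m.primeFactors, jacobiSym (p : ℤ) q = s q := by
  have hprime : ∀ q ∈ m.primeFactors, q.Prime := fun q hq => Nat.prime_of_mem_primeFactors hq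
  have hcop : ∀ q ∈ m.primeFactors, Nat.Coprime q 60 := fun q hq =>
    Nat.Coprime.coprime_dvd_left (Nat.dvd_of_mem_primeFactors hq) h60
  have hne2 : ∀ q ∈ m.primeFactors, q ≠ 2 := by
    rintro q hq rfl
    have := hcop 2 hq
    norm_num at this
  have ht : ∀ q, ∃ t : ℕ, q ∈ m.primeFactors → jacobiSym (t : ℤ) q = s q := by
    intro q
    by_cases hq : q ∈ m.primeFactors
    · obtain ⟨t, ht⟩ := exists_symbol (hprime q hq) (hne2 q hq) (hs q)
      exact ⟨t, fun _ => ht⟩
    · exact ⟨0, fun h => absurd h hq⟩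
  choose t ht using ht
  have h60n : 60 ∉ m.primeFactors := by
    intro h
    exact absurd (hprime 60 h) (by norm_num)
  obtain ⟨n, hn⟩ := Nat.chineseRemainderOfFinset (fun q => if q = 60 then r else t q) id
    (insert 60 m.primeFactors) (by
      intro q hq
      rw [Finset.mem_insert] at hq
      rcases hq with rfl | hq
      · norm_num
      · exact (hprime q hq).ne_zero) (by
      intro a ha b hb hab
      rw [Finset.mem_coe, Finset.mem_insert] at ha hb
      rcases ha with rfl | ha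
      · rcases hb with rfl | hb
        · exact absurd rfl hab
        · exact (hcop b hb).symm
      · rcases hb with rfl | hb
        · exact hcop a ha
        · exact (Nat.coprime_primes (hprime a ha) (hprime b hb)).mpr hab)
  have hn60 : n ≡ r [MOD 60] := by
    have := hn 60 (Finset.mem_insert_self _ _)
    simpa using this
  have hnq : ∀ q ∈ m.primeFactors, jacobiSym (n : ℤ) q = s q := by
    intro q hq
    have h1 := hn q (Finset.mem_insert_of_mem hq)
    have hq60 : q ≠ 60 := by rintro rfl; exact h60n hq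
    simp only [hq60, if_false, id] at h1
    rw [J_congr h1]
    exact ht q hq
  have hc1 : Nat.Coprime n 60 := by
    have := hn60.gcd_eq
    rw [Nat.Coprime, this]
    exact hr
  have hc2 : Nat.Coprime n m := by
    apply Nat.Coprime.symm
    apply Nat.coprime_of_dvd
    intro q hq hqm hqn
    have hq' : q ∈ m.primeFactors := Nat.mem_primeFactors.mpr ⟨hq, hqm, hm.ne_zero⟩
    have h1 := hnq q hq'
    have h2 : jacobiSym (n : ℤ) q = 0 := by
      have := Fact.mk hq
      rw [← jacobiSym.legendreSym.to_jacobiSym, legendreSym.eq_zero_iff]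
      have : ((n : ℕ) : ZMod q) = 0 := (ZMod.natCast_eq_zero_iff n q).mpr hqn
      exact_mod_cast this
    rw [h2] at h1
    rcases hs q with h | h <;> rw [h] at h1 <;> norm_num at h1
  have hNZ : NeZero (60 * m) := ⟨by have := hm.ne_zero; positivity⟩
  obtain ⟨p, hpB, hp, hpn⟩ := Nat.forall_exists_prime_gt_and_eq_mod (q := 60 * m)
    (a := (n : ZMod (60 * m))) ((ZMod.isUnit_iff_coprime _ _).mpr (hc1.mul_right hc2)) B
  have hpn' : p ≡ n [MOD 60 * m] := (ZMod.natCast_eq_natCast_iff _ _ _).mp hpn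
  refine ⟨p, hpB, hp, (hpn'.of_mul_right _).trans hn60, ?_⟩
  intro q hq
  rw [← hnq q hq]
  exact J_congr ((hpn'.of_mul_left _).of_dvd (Nat.dvd_of_mem_primeFactors hq))

/-- **Every odd squarefree `m` prime to `15` extends.** -/
theorem exists_ext {m : ℕ} (hm : Squarefree m) (h60 : Nat.Coprime m 60) (B : ℕ) :
    ∃ p > B, p.Prime ∧ ¬ p ∣ m ∧ (m * p) % 60 = 31 ∧ Squarefree (m * p) ∧ Crit (m * p) := by
  have h3 : ¬ 3 ∣ m := by
    intro h
    have := Nat.Coprime.coprime_dvd_left h h60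
    norm_num at this
  have h5 : ¬ 5 ∣ m := by
    intro h
    have := Nat.Coprime.coprime_dvd_left h h60
    norm_num at this
  obtain ⟨s, hs, hcrit⟩ := exists_signs hm h3 h5
  obtain ⟨k, hk⟩ : ∃ k, m * k % 60 = 1 := by
    obtain ⟨k, hk⟩ := Nat.exists_mul_mod_eq_one_of_coprime h60 (by norm_num)
    exact ⟨k, hk.2⟩
  have hr : Nat.Coprime (31 * k) 60 := by
    apply Nat.Coprime.mul_left (by norm_num)
    rw [Nat.coprime_iff_gcd_eq_one]
    have h1 : Nat.gcd k 60 ∣ m * k := (Nat.gcd_dvd_left k 60).mul_left m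
    have h2 : Nat.gcd k 60 ∣ 60 := Nat.gcd_dvd_right k 60
    have h3 : Nat.gcd k 60 ∣ m * k % 60 := (Nat.dvd_mod_iff h2).mpr h1
    rw [hk] at h3
    exact Nat.dvd_one.mp h3
  obtain ⟨p, hpB, hp, hpr, hps⟩ := exists_prime_symbols hm h60 hs hr (max B (max m 5))
  have hB : p > B := lt_of_le_of_lt (le_max_left _ _) hpB
  have hpm5 : p > max m 5 := lt_of_le_of_lt (le_max_right _ _) hpB
  have hpm' : p > m := lt_of_le_of_lt (le_max_left _ _) hpm5
  have hp5 : p > 5 := lt_of_le_of_lt (le_max_right _ _) hpm5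
  have hpm : ¬ p ∣ m := fun h => absurd (Nat.le_of_dvd (Nat.pos_of_ne_zero hm.ne_zero) h) (by omega)
  have hmp : (m * p) % 60 = 31 := by
    have h1 : m * p ≡ m * (31 * k) [MOD 60] := hpr.mul_left m
    have h2 : m * (31 * k) = 31 * (m * k) := by ring
    have h3 : 31 * (m * k) ≡ 31 * 1 [MOD 60] := Nat.ModEq.mul_left 31 (show m * k % 60 = 1 % 60 by rw [hk])
    have h4 : m * p ≡ 31 * 1 [MOD 60] := h1.trans (h2 ▸ h3)
    exact h4
  have hcop : Nat.Coprime m p := by
    rw [Nat.coprime_comm, Nat.Prime.coprime_iff_not_dvd hp]; exact hpm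
  refine ⟨p, hB, hp, hpm, hmp, ?_, hcrit p hp (by omega) (by omega) hpm (by omega) (by omega) hps⟩
  rw [Nat.squarefree_mul hcop]; exact ⟨hm, hp.squarefree⟩

theorem nonsquare_ten {p : ℕ} (hp : p.Prime) (h2 : p ≠ 2) (h5 : p ≠ 5)
    (h : jacobiSym 2 p * jacobiSym 5 p = -1) : ¬ IsSquare ((10 : ℕ) : ZMod p) := by
  intro hsq
  have := Fact.mk hp
  have h10 : ¬ (p : ℤ) ∣ (10 : ℤ) := by
    intro hd
    have h6 : p ∣ 2 * 5 := by exact_mod_cast hd
    rcases (Nat.Prime.dvd_mul hp).mp h6 with h7 | h7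
    · exact h2 ((Nat.prime_dvd_prime_iff_eq hp Nat.prime_two).mp h7)
    · exact h5 ((Nat.prime_dvd_prime_iff_eq hp Nat.prime_five).mp h7)
  have h1 : jacobiSym 10 p = 1 := by
    apply J_prime_one hp h10
    exact_mod_cast hsq
  have h3 : jacobiSym (10 : ℤ) p = jacobiSym 2 p * jacobiSym 5 p := by
    rw [← jacobiSym.mul_left]; norm_num
  rw [h3, h] at h1
  norm_num at h1

theorem J5 {p : ℕ} (hodd : Odd p) : jacobiSym 5 p = jacobiSym p 5 := by
  have := jacobiSym.quadratic_reciprocity_one_mod_four (a := 5) (b := p) (by norm_num) hodd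
  exact_mod_cast this

theorem J5_one {p : ℕ} (hodd : Odd p) (h : p % 5 = 1 ∨ p % 5 = 4) : jacobiSym 5 p = 1 := by
  rw [J5 hodd, jacobiSym.mod_left]
  rcases h with h | h
  · have h4 : (p : ℤ) % ((5 : ℕ) : ℤ) = 1 := by push_cast; omega
    rw [h4]; norm_num
  · have h4 : (p : ℤ) % ((5 : ℕ) : ℤ) = 4 := by push_cast; omega
    rw [h4]; norm_num

theorem J5_neg {p : ℕ} (hodd : Odd p) (h : p % 5 = 2 ∨ p % 5 = 3) : jacobiSym 5 p = -1 := by
  rw [J5 hodd, jacobiSym.mod_left]
  rcases h with h | h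
  · have h4 : (p : ℤ) % ((5 : ℕ) : ℤ) = 2 := by push_cast; omega
    rw [h4]; norm_num
  · have h4 : (p : ℤ) % ((5 : ℕ) : ℤ) = 3 := by push_cast; omega
    rw [h4]; norm_num

theorem dvd_ten {c : ℕ} (h : c ∣ 10) : c = 1 ∨ c = 2 ∨ c = 5 ∨ c = 10 := by
  have h1 : c ≤ 10 := Nat.le_of_dvd (by norm_num) h
  interval_cases c <;> omega

/-- splitting off the prime `p` -/
theorem split_prime {p c k : ℕ} (hp : p.Prime) (hc : Squarefree c) (hck : c ∣ k * p) :
    ∃ c', Squarefree c' ∧ c' ∣ k ∧ ¬ p ∣ c' ∧ (c = c' ∨ c = p * c') := by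
  by_cases h : p ∣ c
  · obtain ⟨c', hc'⟩ := h
    refine ⟨c', hc.squarefree_of_dvd ⟨p, by rw [hc']; ring⟩, ?_, ?_, Or.inr hc'⟩
    · obtain ⟨e, he⟩ := hck
      refine ⟨e, ?_⟩
      apply Nat.eq_of_mul_eq_mul_left hp.pos
      rw [hc'] at he
      linarith
    · rintro ⟨e, he⟩
      have := hc p ⟨e, by rw [hc', he]; ring⟩
      exact hp.one_lt.ne' (Nat.isUnit_iff.mp this)
  · exact ⟨c, hc, Nat.Coprime.dvd_of_dvd_mul_right
      (((Nat.Prime.coprime_iff_not_dvd hp).mpr h).symm) hck, h, Or.inl rfl⟩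

/-- **primes** -/
theorem crit_prime {p : ℕ} (hp : p.Prime) (h3 : p % 3 = 1) (h5 : p % 5 = 1 ∨ p % 5 = 4)
    (h8 : p % 8 ≠ 1) : Crit p := by
  intro c hc hc10 hc2 hc3 hloc
  have hp2 : p ≠ 2 := by rintro rfl; omega
  have hp5 : p ≠ 5 := by rintro rfl; omega
  have hodd : Odd p := hp.odd_of_ne_two hp2
  have hp1 : p % 2 = 1 := Nat.odd_iff.mp hodd
  obtain ⟨c', hc', hck, hpc, hcases⟩ := split_prime hp hc hc10
  have hmod : c' % 3 = 1 := by
    rcases hcases with h | h
    · omega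
    · rw [h, Nat.mul_mod, h3, one_mul, Nat.mod_mod] at hc3
      exact hc3
  have hc'1 : c' = 1 := by
    rcases dvd_ten hck with h | h | h | h
    · exact h
    · omega
    · omega
    · exfalso
      have hsq : IsSquare ((10 : ℕ) : ZMod p) := by
        obtain ⟨l1, l2⟩ := hloc p hp hp2 dvd_rfl
        rcases hcases with h6 | h6
        · have := l1 (by rw [h6]; exact hpc)
          rw [h6, h] at this
          exact this
        · have := l2 (by rw [h6]; exact dvd_mul_right _ _)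
          rw [h6, h, Nat.mul_div_cancel_left _ hp.pos, Nat.div_self hp.pos, one_mul] at this
          exact this
      have h4 : p % 4 ≠ 3 := by
        intro h4
        apply hc2 h4
        rcases hcases with h6 | h6
        · rw [h6, h]; norm_num
        · rw [h6, h]; exact ⟨p * 5, by ring⟩
      apply nonsquare_ten hp hp2 hp5 _ hsq
      rw [J5_one hodd h5, mul_one, jacobiSym.at_two hodd, ZMod.χ₈_nat_eq_if_mod_eight,
        if_neg (by omega), if_neg (by omega)]
  rcases hcases with h | h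
  · left; rw [h, hc'1]
  · right; rw [h, hc'1, mul_one]

/-- **twice a prime** -/
theorem crit_two_mul_prime {p : ℕ} (hp : p.Prime) (h3 : (2 * p) % 3 = 1)
    (h5 : (2 * p) % 5 = 1 ∨ (2 * p) % 5 = 4) (h8 : p % 8 = 1 ∨ p % 8 = 7) : Crit (2 * p) := by
  have h25 : p % 5 = 2 ∨ p % 5 = 3 := by omega
  have h81 : ¬ p % 2 = 0 := by omega
  intro c hc hc10 hc2 hc3 hloc
  have hp2 : p ≠ 2 := by rintro rfl; omega
  have hp5 : p ≠ 5 := by rintro rfl; omega
  have hodd : Odd p := hp.odd_of_ne_two hp2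
  have hp3 : p % 3 = 2 := by omega
  obtain ⟨c', hc', hck, hpc, hcases⟩ := split_prime (k := 20) hp hc (by
    refine hc10.trans ⟨1, by ring⟩)
  have hck10 : c' ∣ 10 := by
    have h1 : c' ∣ 2 * 10 := hck
    by_cases h2 : 2 ∣ c'
    · obtain ⟨e, he⟩ := h2
      have he2 : ¬ 2 ∣ e := by
        rintro ⟨f, hf⟩
        have := hc' 2 ⟨f, by rw [he, hf]; ring⟩
        norm_num at this
      have h3 : e ∣ 10 := by
        obtain ⟨f, hf⟩ := h1
        refine ⟨f, ?_⟩
        rw [he] at hf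
        have : 2 * 10 = 2 * (e * f) := by rw [hf]; ring
        omega
      have h4 : e ∣ 5 * 2 := h3
      have h6 : e ∣ 5 := Nat.Coprime.dvd_of_dvd_mul_right
        (((Nat.Prime.coprime_iff_not_dvd Nat.prime_two).mpr he2).symm) h4
      rw [he]
      exact Nat.mul_dvd_mul_left 2 h6
    · exact Nat.Coprime.dvd_of_dvd_mul_left
        (((Nat.Prime.coprime_iff_not_dvd Nat.prime_two).mpr h2).symm) h1
  have h10 : ¬ IsSquare ((10 : ℕ) : ZMod p) := by
    apply nonsquare_ten hp hp2 hp5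
    rw [J5_neg hodd h25, jacobiSym.at_two hodd, ZMod.χ₈_nat_eq_if_mod_eight,
      if_neg h81, if_pos h8]
    norm_num
  have h2p : 2 * p / p = 2 := Nat.mul_div_cancel 2 hp.pos
  obtain ⟨l1, l2⟩ := hloc p hp hp2 (dvd_mul_left _ _)
  rcases hcases with h | h
  · have hl := l1 (by rw [h]; exact hpc)
    rcases dvd_ten hck10 with h6 | h6 | h6 | h6
    · left; rw [h, h6]
    · omega
    · omega
    · exfalso
      rw [h, h6] at hl
      exact h10 hl
  · have hl := l2 (by rw [h]; exact dvd_mul_right _ _)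
    rw [h2p, h, Nat.mul_div_cancel_left _ hp.pos] at hl
    rcases dvd_ten hck10 with h6 | h6 | h6 | h6
    · rw [h, h6] at hc3; omega
    · right; rw [h, h6, mul_comm]
    · exfalso
      rw [h6] at hl
      exact h10 hl
    · rw [h, h6] at hc3; omega

end Vale.Agent.P017.H735
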