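import Vale.Agent.P017.H185.Fam

/-!
# Local conditions in the case `3` inert, `5` split
-/

namespace Vale.Agent.P017.H735

open Vale.Agent.P017.H185

/-- Local conditions at the odd primes dividing `d`: they say that `c` is a norm from
`ℚ_p(√-d)` for every odd prime `p` dividing `d`. -/
def LocN (d c : ℕ) : Prop := ∀ p : ℕ, p.Prime → p ≠ 2 → p ∣ d →
  (¬ p ∣ c → IsSquare (c : ZMod p)) ∧ (p ∣ c → IsSquare ((d / p * (c / p) : ℕ) : ZMod p))

/-- Norms from `ℚ(√-d)` satisfy the local conditions. -/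
theorem loc_of_norm {d a : ℕ} (hd : Squarefree d) (ha : Squarefree a) {u v : ℚ}
    (h : u ^ 2 + d * v ^ 2 = a) : LocN d a := by
  intro p hp _ hpd
  have := Fact.mk hp
  have hp' : Prime (p : ℤ) := Nat.prime_iff_prime_int.mp hp
  have hpos : 0 < p := hp.pos
  obtain ⟨X, Y, Z, hZ, hX, hY, hprim⟩ := exists_prim u v
  have heq : X ^ 2 + d * Y ^ 2 = a * Z ^ 2 := by
    have : (X : ℚ) ^ 2 + d * Y ^ 2 = a * Z ^ 2 := by
      rw [← hX, ← hY, ← h]; ring
    exact_mod_cast this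
  obtain ⟨d', hd'⟩ := hpd
  have hpd' : ¬ p ∣ d' := by
    rintro ⟨e, he⟩
    have := hd p ⟨e, by rw [hd', he]; ring⟩
    exact hp.one_lt.ne' (Nat.isUnit_iff.mp this)
  have hdp : d / p = d' := by rw [hd']; exact Nat.mul_div_cancel_left d' hpos
  constructor
  · intro hpa
    have hZp : ¬ (p : ℤ) ∣ Z := by
      intro hZp
      have h1 : (p : ℤ) ∣ X ^ 2 := by
        have : X ^ 2 = a * Z ^ 2 - p * (d' * Y ^ 2) := by rw [hd'] at heq; push_cast at heq; linarith
        rw [this]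
        exact dvd_sub (Dvd.dvd.mul_left (Dvd.dvd.pow hZp two_ne_zero) _) (dvd_mul_right _ _)
      have h2 := hp'.dvd_of_dvd_pow h1
      obtain ⟨x, hx⟩ := h2
      obtain ⟨z, hz⟩ := hZp
      have h3 : (p : ℤ) ∣ d' * Y ^ 2 := by
        refine ⟨a * z ^ 2 - x ^ 2, ?_⟩
        apply mul_left_cancel₀ hp'.ne_zero
        rw [hd', hx, hz] at heq
        push_cast at heq
        linear_combination heq
      rcases hp'.dvd_or_dvd h3 with h4 | h4
      · exact hpd' (by exact_mod_cast h4)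
      · exact hprim p hp ⟨⟨x, hx⟩, hp'.dvd_of_dvd_pow h4, ⟨z, hz⟩⟩
    have hZ0 : ((Z : ℤ) : ZMod p) ≠ 0 := by
      rwa [Ne, ZMod.intCast_zmod_eq_zero_iff_dvd]
    refine ⟨(X : ZMod p) / Z, ?_⟩
    have h1 : ((X ^ 2 + d * Y ^ 2 : ℤ) : ZMod p) = ((a * Z ^ 2 : ℤ) : ZMod p) := by rw [heq]
    push_cast at h1
    have h2 : (d : ZMod p) = 0 := by
      rw [hd']; simp
    rw [h2] at h1
    field_simp
    linear_combination -h1
  · rintro ⟨a', ha'⟩
    have hap : a / p = a' := by rw [ha']; exact Nat.mul_div_cancel_left a' hpos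
    rw [hdp, hap]
    have hpa' : ¬ p ∣ a' := by
      rintro ⟨e, he⟩
      have := ha p ⟨e, by rw [ha', he]; ring⟩
      exact hp.one_lt.ne' (Nat.isUnit_iff.mp this)
    have heq2 : X ^ 2 + p * (d' * Y ^ 2) = p * (a' * Z ^ 2) := by
      rw [hd', ha'] at heq; push_cast at heq; linarith
    have h1 : (p : ℤ) ∣ X ^ 2 := by
      have : X ^ 2 = p * (a' * Z ^ 2 - d' * Y ^ 2) := by linarith
      exact ⟨_, this⟩
    obtain ⟨x, hx⟩ := hp'.dvd_of_dvd_pow h1
    have heq3 : p * x ^ 2 + d' * Y ^ 2 = a' * Z ^ 2 := by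
      apply mul_left_cancel₀ hp'.ne_zero
      rw [hx] at heq2
      linear_combination heq2
    have ha'0 : ((a' : ℕ) : ZMod p) ≠ 0 := by
      rwa [Ne, ZMod.natCast_eq_zero_iff]
    have h2 : (d' : ZMod p) * (Y : ZMod p) ^ 2 = a' * (Z : ZMod p) ^ 2 := by
      have h1 : ((p * x ^ 2 + d' * Y ^ 2 : ℤ) : ZMod p) = ((a' * Z ^ 2 : ℤ) : ZMod p) := by
        rw [heq3]
      push_cast at h1
      rw [ZMod.natCast_self, zero_mul, zero_add] at h1
      exact h1
    by_cases hY0 : ((Y : ℤ) : ZMod p) = 0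
    · exfalso
      rw [hY0] at h2
      have hZ0 : ((Z : ℤ) : ZMod p) = 0 := by
        have h3 : (a' : ZMod p) * ((Z : ℤ) : ZMod p) ^ 2 = 0 := by rw [← h2]; ring
        rcases mul_eq_zero.mp h3 with h3 | h3
        · exact absurd h3 ha'0
        · exact pow_eq_zero_iff two_ne_zero |>.mp h3
      rw [ZMod.intCast_zmod_eq_zero_iff_dvd] at hY0 hZ0
      exact hprim p hp ⟨⟨x, hx⟩, hY0, hZ0⟩
    · refine ⟨(a' : ZMod p) * Z / Y, ?_⟩
      push_cast
      field_simp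
      linear_combination h2

theorem mod3_of {d : ℤ} (h : d % 3 = 1) : (d : ZMod 3) = 1 := by
  have := (ZMod.intCast_eq_intCast_iff_dvd_sub d 1 3).mpr (by push_cast; omega)
  exact_mod_cast this

/-- first descent at three -/
theorem first_three {b d M e N : ℤ} (hMe : IsCoprime M e) (hd : d % 3 = 1) (hb : ¬ (3 : ℤ) ∣ b)
    (h : (b * M ^ 2 + (-16 * d) * e ^ 2) * (b * M ^ 2 + (-25 * d) * e ^ 2) = b * N ^ 2) :
    b % 3 = 1 := by
  by_contra hcon
  have hb2 : b % 3 = 2 := by omega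
  have hbz : (b : ZMod 3) = 2 := by
    have := (ZMod.intCast_eq_intCast_iff_dvd_sub b 2 3).mpr (by push_cast; omega)
    exact_mod_cast this
  have key : ∀ M e N : ZMod 3, (2 * M ^ 2 + (-16 * 1) * e ^ 2) * (2 * M ^ 2 + (-25 * 1) * e ^ 2) =
      2 * N ^ 2 → M = 0 ∧ e = 0 := by decide
  have h1 := congrArg (Int.cast : ℤ → ZMod 3) h
  push_cast at h1
  rw [hbz, mod3_of hd] at h1
  obtain ⟨hM, he⟩ := key _ _ _ h1
  rw [ZMod.intCast_zmod_eq_zero_iff_dvd] at hM he
  exact cop_ndvd Nat.prime_three hMe he hM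

/-- second descent at five -/
theorem second_five {b d M e N : ℤ} (hMe : IsCoprime M e) (hd : d % 5 = 1 ∨ d % 5 = 4)
    (hb : ¬ (5 : ℤ) ∣ b)
    (h : (b * M ^ 2 + d * e ^ 2) * (b * M ^ 2 + 81 * d * e ^ 2) = b * N ^ 2) :
    b % 5 = 1 ∨ b % 5 = 4 := by
  by_contra hcon
  have hb2 : b % 5 = 2 ∨ b % 5 = 3 := by omega
  have hbz : (b : ZMod 5) = 2 ∨ (b : ZMod 5) = 3 := by
    rcases hb2 with h | h
    · left
      have := (ZMod.intCast_eq_intCast_iff_dvd_sub b 2 5).mpr (by push_cast; omega)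
      exact_mod_cast this
    · right
      have := (ZMod.intCast_eq_intCast_iff_dvd_sub b 3 5).mpr (by push_cast; omega)
      exact_mod_cast this
  have hdz : (d : ZMod 5) = 1 ∨ (d : ZMod 5) = 4 := by
    rcases hd with h | h
    · left
      have := (ZMod.intCast_eq_intCast_iff_dvd_sub d 1 5).mpr (by push_cast; omega)
      exact_mod_cast this
    · right
      have := (ZMod.intCast_eq_intCast_iff_dvd_sub d 4 5).mpr (by push_cast; omega)
      exact_mod_cast this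
  have key : ∀ b d M e N : ZMod 5, (b = 2 ∨ b = 3) → (d = 1 ∨ d = 4) →
      (b * M ^ 2 + d * e ^ 2) * (b * M ^ 2 + 81 * d * e ^ 2) = b * N ^ 2 → M = 0 ∧ e = 0 := by
    decide
  have h1 := congrArg (Int.cast : ℤ → ZMod 5) h
  push_cast at h1
  obtain ⟨hM, he⟩ := key _ _ _ _ _ hbz hdz h1
  rw [ZMod.intCast_zmod_eq_zero_iff_dvd] at hM he
  exact cop_ndvd Nat.prime_five hMe he hM

end Vale.Agent.P017.H735
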