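import Vale.Agent.P017.H735.LA
import Vale.Agent.P017.H735.Loc

/-!
# Duality between the two Selmer conditions
-/

namespace Vale.Agent.P017.H735

open Vale.Agent.P017.H185

/-- The criterion: the only positive squarefree `c ≡ 1 mod 3`, composed of `5` and of primes
ramified in `ℚ(√-d)`, which satisfy the local conditions, are `1` and `d`. -/
def Crit (d : ℕ) : Prop := ∀ c : ℕ, Squarefree c → c ∣ 10 * d → (d % 4 = 3 → ¬ 2 ∣ c) →
  c % 3 = 1 → LocN d c → c = 1 ∨ c = d

/-- the second Selmer condition, normalised -/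
structure Sel (d : ℕ) (b : ℤ) : Prop where
  sqf : Squarefree b
  dvd : b ∣ 3 * d
  five : b % 5 = 1 ∨ b % 5 = 4
  four : b % 4 = 1
  eight : d % 4 ≠ 3 → b % 8 = 1
  loc1 : ∀ p : ℕ, p.Prime → p ≠ 2 → p ∣ d → ¬ (p : ℤ) ∣ b → IsSquare (b : ZMod p)
  loc2 : ∀ p : ℕ, p.Prime → p ≠ 2 → ∀ β δ : ℤ, b = p * β → (d : ℤ) = p * δ →
    IsSquare ((-(δ * β) : ℤ) : ZMod p)

theorem jac_prod {a : ℤ} (S : Finset ℕ) (hS : ∀ p ∈ S, p.Prime) :
    jacobiSym a (∏ p ∈ S, p) = ∏ p ∈ S, jacobiSym a p := by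
  classical
  induction S using Finset.induction_on with
  | empty => simp
  | insert q S hq ih =>
    rw [Finset.prod_insert hq, Finset.prod_insert hq, jacobiSym.mul_right',
      ih (fun p hp => hS p (Finset.mem_insert_of_mem hp))]
    · exact (hS q (Finset.mem_insert_self _ _)).ne_zero
    · exact Finset.prod_ne_zero_iff.mpr
        (fun p hp => (hS p (Finset.mem_insert_of_mem hp)).ne_zero)

theorem jac_prod_left {p : ℕ} (S : Finset ℕ) :
    jacobiSym ((∏ q ∈ S, q : ℕ) : ℤ) p = ∏ q ∈ S, jacobiSym (q : ℤ) p := by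
  classical
  induction S using Finset.induction_on with
  | empty => simp
  | insert q S hq ih =>
    rw [Finset.prod_insert hq, Finset.prod_insert hq, Nat.cast_mul, jacobiSym.mul_left, ih]

theorem sqf_prod (S : Finset ℕ) (hS : ∀ p ∈ S, p.Prime) : Squarefree (∏ p ∈ S, p) := by
  classical
  induction S using Finset.induction_on with
  | empty => simp
  | insert q S hq ih =>
    rw [Finset.prod_insert hq, Nat.squarefree_mul]
    · exact ⟨(hS q (Finset.mem_insert_self _ _)).squarefree,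
        ih (fun p hp => hS p (Finset.mem_insert_of_mem hp))⟩
    · apply Nat.Coprime.prod_right
      intro p hp
      rw [Nat.coprime_primes (hS q (Finset.mem_insert_self _ _)) (hS p (Finset.mem_insert_of_mem hp))]
      rintro rfl
      exact hq hp

theorem dvd_prod_iff {S : Finset ℕ} (hS : ∀ p ∈ S, p.Prime) {p : ℕ} (hp : p.Prime) :
    p ∣ ∏ q ∈ S, q ↔ p ∈ S := by
  rw [hp.prime.dvd_finset_prod_iff]
  constructor
  · rintro ⟨q, hq, hpq⟩
    rw [(Nat.prime_dvd_prime_iff_eq hp (hS q hq)).mp hpq]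
    exact hq
  · intro h
    exact ⟨p, h, dvd_rfl⟩

/-- the symbols -/
def sym (d p q : ℕ) : ℤ := if q = p then jacobiSym ((d / p : ℕ) : ℤ) p else jacobiSym (q : ℤ) p

/-- odd primes dividing `d` -/
def Od (d : ℕ) : Finset ℕ := d.primeFactors.erase 2

/-- rows -/
def Rw (d : ℕ) : Finset ℕ := insert 3 (Od d)

/-- columns -/
def Cl (d : ℕ) : Finset ℕ := if d % 4 = 3 then insert 5 (Od d) else insert 2 (insert 5 (Od d))

section

variable {d : ℕ} (hd : Squarefree d) (h3 : d % 3 = 1) (h5 : d % 5 = 1 ∨ d % 5 = 4)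

include hd in
theorem mem_Od {p : ℕ} : p ∈ Od d ↔ p.Prime ∧ p ≠ 2 ∧ p ∣ d := by
  unfold Od
  rw [Finset.mem_erase, Nat.mem_primeFactors_of_ne_zero hd.ne_zero]
  tauto

include hd in
theorem mem_Rw {p : ℕ} : p ∈ Rw d ↔ p = 3 ∨ (p.Prime ∧ p ≠ 2 ∧ p ∣ d) := by
  unfold Rw
  rw [Finset.mem_insert, mem_Od hd]

include hd in
theorem mem_Cl {q : ℕ} : q ∈ Cl d ↔ (q = 2 ∧ d % 4 ≠ 3) ∨ q = 5 ∨ (q.Prime ∧ q ≠ 2 ∧ q ∣ d) := by
  unfold Cl
  by_cases h : d % 4 = 3
  · rw [if_pos h, Finset.mem_insert, mem_Od hd]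
    tauto
  · rw [if_neg h, Finset.mem_insert, Finset.mem_insert, mem_Od hd]
    tauto

include hd in
theorem prime_Rw {p : ℕ} (h : p ∈ Rw d) : p.Prime ∧ p ≠ 2 := by
  rcases (mem_Rw hd).mp h with rfl | h
  · exact ⟨Nat.prime_three, by norm_num⟩
  · exact ⟨h.1, h.2.1⟩

include hd in
theorem prime_Cl {q : ℕ} (h : q ∈ Cl d) : q.Prime := by
  rcases (mem_Cl hd).mp h with ⟨rfl, _⟩ | rfl | h
  · exact Nat.prime_two
  · exact Nat.prime_five
  · exact h.1

include h3 in
theorem three_ndvd : ¬ 3 ∣ d := by omega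

include h5 in
theorem five_ndvd : ¬ 5 ∣ d := by omega

include hd in
theorem ndvd_div {p : ℕ} (hp : p.Prime) (hpd : p ∣ d) : ¬ p ∣ d / p := by
  intro h
  obtain ⟨e, he⟩ := h
  obtain ⟨f, hf⟩ := hpd
  have h1 : d / p = f := by rw [hf]; exact Nat.mul_div_cancel_left f hp.pos
  have := hd p ⟨e, by rw [mul_assoc, ← he, h1, ← hf]⟩
  exact hp.one_lt.ne' (Nat.isUnit_iff.mp this)

theorem jac_pm {p : ℕ} (hp : p.Prime) {a : ℕ} (h : ¬ p ∣ a) :
    jacobiSym (a : ℤ) p = 1 ∨ jacobiSym (a : ℤ) p = -1 := by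
  apply jacobiSym.eq_one_or_neg_one
  rw [Int.gcd_natCast_natCast]
  exact ((Nat.Prime.coprime_iff_not_dvd hp).mpr h).symm

include hd in
theorem sym_pm {p q : ℕ} (hp : p ∈ Rw d) (hq : q ∈ Cl d) (h3 : d % 3 = 1) :
    sym d p q = 1 ∨ sym d p q = -1 := by
  have hpp := prime_Rw hd hp
  have hqq := prime_Cl hd hq
  unfold sym
  by_cases h : q = p
  · rw [if_pos h]
    apply jac_pm hpp.1
    apply ndvd_div hd hpp.1
    rcases (mem_Rw hd).mp hp with h0 | h0
    · exfalso
      rw [h0] at h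
      rcases (mem_Cl hd).mp hq with ⟨h1, _⟩ | h1 | h1
      · omega
      · omega
      · rw [h] at h1; omega
    · exact h0.2.2
  · rw [if_neg h]
    apply jac_pm hpp.1
    intro h1
    exact h ((Nat.prime_dvd_prime_iff_eq hpp.1 hqq).mp h1).symm

/-- the support of a second Selmer element -/
def Tb (d : ℕ) (b : ℤ) : Finset ℕ := (Rw d).filter (fun p => (p : ℤ) ∣ b)

include hd in
theorem prime_Tb {b : ℤ} {p : ℕ} (hp : p ∈ Tb d b) : p.Prime :=
  (prime_Rw hd (Finset.mem_filter.mp hp).1).1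

include hd in
theorem prod_Tb {b : ℤ} (hb : Sel d b) : ∏ p ∈ Tb d b, p = b.natAbs := by
  have hsq : Squarefree b.natAbs := Int.squarefree_natAbs.mpr hb.sqf
  rw [← Nat.prod_primeFactors_of_squarefree hsq]
  apply Finset.prod_congr _ (fun _ _ => rfl)
  ext p
  unfold Tb
  rw [Finset.mem_filter, mem_Rw hd, Nat.mem_primeFactors_of_ne_zero hsq.ne_zero, Int.natCast_dvd]
  constructor
  · rintro ⟨rfl | h1, h2⟩
    · exact ⟨Nat.prime_three, h2⟩
    · exact ⟨h1.1, h2⟩
  · rintro ⟨h1, h2⟩
    refine ⟨?_, h2⟩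
    have h4 : (p : ℤ) ∣ 3 * d := (Int.natCast_dvd.mpr h2).trans hb.dvd
    have h6 : p ∣ 3 * d := by exact_mod_cast h4
    rcases (Nat.Prime.dvd_mul h1).mp h6 with h7 | h7
    · left
      exact (Nat.prime_dvd_prime_iff_eq h1 Nat.prime_three).mp h7
    · right
      refine ⟨h1, ?_, h7⟩
      rintro rfl
      have := hb.four
      have h8 : (2 : ℤ) ∣ b := Int.natCast_dvd.mpr h2
      omega

include hd in
theorem Tb_inj {b b' : ℤ} (hb : Sel d b) (hb' : Sel d b') (h : Tb d b = Tb d b') : b = b' := by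
  have h1 : b.natAbs = b'.natAbs := by rw [← prod_Tb hd hb, ← prod_Tb hd hb', h]
  have h2 := hb.four
  have h4 := hb'.four
  rcases Int.natAbs_eq_natAbs_iff.mp h1 with h5 | h5
  · exact h5
  · omega

theorem sel_one (h : d ≠ 0) : Sel d 1 where
  sqf := squarefree_one
  dvd := one_dvd _
  five := Or.inl rfl
  four := rfl
  eight := fun _ => rfl
  loc1 := fun p _ _ _ _ => ⟨1, by simp⟩
  loc2 := by
    intro p hp _ β δ hβ _
    exfalso
    have : (p : ℤ) ∣ 1 := ⟨β, hβ⟩
    have h1 : p ∣ 1 := by exact_mod_cast this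
    exact hp.one_lt.ne' (Nat.dvd_one.mp h1)

include hd h5 in
theorem sel_neg (h4 : d % 4 = 3) : Sel d (-(d : ℤ)) where
  sqf := by
    have h1 : Squarefree (d : ℤ) := Int.squarefree_natCast.mpr hd
    rwa [← Int.squarefree_natAbs, Int.natAbs_neg, Int.squarefree_natAbs]
  dvd := ⟨-3, by ring⟩
  five := by omega
  four := by omega
  eight := fun h => absurd h4 h
  loc1 := by
    intro p _ _ h1 h2
    exact absurd ((Int.dvd_neg).mpr (Int.natCast_dvd_natCast.mpr h1)) h2
  loc2 := by
    intro p hp _ β δ h1 h2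
    have hp0 : (p : ℤ) ≠ 0 := by exact_mod_cast hp.ne_zero
    have h6 : β = -δ := by
      apply mul_left_cancel₀ hp0
      rw [← h1, h2]; ring
    refine ⟨(δ : ZMod p), ?_⟩
    rw [h6]
    push_cast
    ring

include hd h3 h5 in
/-- **reciprocity**: the characters attached to second Selmer elements are trivial on all columns -/
theorem left_ker {b : ℤ} (hb : Sel d b) {q : ℕ} (hq : q ∈ Cl d) :
    ∏ p ∈ Tb d b, sym d p q = 1 := by
  have hqp := prime_Cl hd hq
  have hb0 : b ≠ 0 := hb.sqf.ne_zero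
  have hbodd : b.natAbs % 2 = 1 := by have := hb.four; omega
  by_cases hqT : q ∈ Tb d b
  · -- the prime `q` divides `b`
    have hqb : (q : ℤ) ∣ b := (Finset.mem_filter.mp hqT).2
    have hq2 : q ≠ 2 := by
      rintro rfl
      have := hb.four
      have h8 : (2 : ℤ) ∣ b := hqb
      omega
    have hqd : q ∣ d := by
      rcases (mem_Rw hd).mp (Finset.mem_filter.mp hqT).1 with h | h
      · exfalso
        rcases (mem_Cl hd).mp hq with ⟨h1, _⟩ | h1 | h1
        · omega
        · omega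
        · rw [h] at h1; omega
      · exact h.2.2
    have := Fact.mk hqp
    have hqodd : Odd q := hqp.odd_of_ne_two hq2
    obtain ⟨β, hβ⟩ := hqb
    obtain ⟨δ, hδ⟩ := hqd
    have hq0 : q ≠ 0 := hqp.ne_zero
    have hdq : d / q = δ := by rw [hδ]; exact Nat.mul_div_cancel_left δ hqp.pos
    rw [← Finset.mul_prod_erase _ _ hqT]
    have h1 : sym d q q = jacobiSym (δ : ℤ) q := by unfold sym; rw [if_pos rfl, hdq]
    have h2 : ∏ p ∈ (Tb d b).erase q, sym d p q = jacobiSym (q : ℤ) β.natAbs := by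
      have e1 : ∏ p ∈ (Tb d b).erase q, p = β.natAbs := by
        apply Nat.eq_of_mul_eq_mul_left hqp.pos
        rw [Finset.mul_prod_erase _ (fun p => p) hqT, prod_Tb hd hb, hβ, Int.natAbs_mul,
          Int.natAbs_natCast]
      rw [← e1, jac_prod _ (fun p hp => prime_Tb hd (Finset.mem_of_mem_erase hp))]
      apply Finset.prod_congr rfl
      intro p hp
      unfold sym
      rw [if_neg (Finset.ne_of_mem_erase hp).symm]
    rw [h1, h2]
    -- local condition
    have hqδ : ¬ q ∣ δ := by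
      have := ndvd_div hd hqp (show q ∣ d from ⟨δ, hδ⟩)
      rwa [hdq] at this
    have hqβ : ¬ (q : ℤ) ∣ β := not_dvd_of_sqf hqp hb.sqf hβ
    have hloc := hb.loc2 q hqp hq2 β δ hβ (by rw [hδ]; push_cast; rfl)
    have h7 : jacobiSym (-((δ : ℤ) * β)) q = 1 := by
      apply J_prime_one hqp _ hloc
      rw [Int.dvd_neg]
      exact ndvd_mul hqp (by exact_mod_cast hqδ) hqβ
    have h8 : jacobiSym (δ : ℤ) q * jacobiSym (-β) q = 1 := by
      rw [← jacobiSym.mul_left, ← h7]
      congr 1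
      ring
    have h9 : jacobiSym (q : ℤ) β.natAbs = jacobiSym (-β) q := by
      have hb4 := hb.four
      rw [hβ] at hb4
      rcases Nat.odd_mod_four_iff.mp (Nat.odd_iff.mp hqodd) with hq4 | hq4
      · have hβ4 : β % 4 = 1 := by
          obtain ⟨k, hk⟩ : ∃ k, q = 4 * k + 1 := ⟨q / 4, by omega⟩
          rw [hk] at hb4
          push_cast at hb4
          have : ((4 * (k : ℤ) + 1) * β) = 4 * (k * β) + β := by ring
          rw [this] at hb4
          omega
        rw [← J_recip hβ4 hqodd]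
        rw [jacobiSym.neg _ hqodd, ZMod.χ₄_nat_one_mod_four hq4, one_mul]
      · have hβ4 : (-β) % 4 = 1 := by
          obtain ⟨k, hk⟩ : ∃ k, q = 4 * k + 3 := ⟨q / 4, by omega⟩
          rw [hk] at hb4
          push_cast at hb4
          have : ((4 * (k : ℤ) + 3) * β) = 4 * (k * β + β) - β := by ring
          rw [this] at hb4
          omega
        have := J_recip hβ4 hqodd
        rw [Int.natAbs_neg] at this
        exact this.symm
    rw [h9]
    exact h8
  · -- the prime `q` does not divide `b`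
    have h1 : ∏ p ∈ Tb d b, sym d p q = jacobiSym (q : ℤ) b.natAbs := by
      rw [← prod_Tb hd hb, jac_prod _ (fun p hp => prime_Tb hd hp)]
      apply Finset.prod_congr rfl
      intro p hp
      unfold sym
      rw [if_neg]
      rintro rfl
      exact hqT hp
    rw [h1]
    rcases (mem_Cl hd).mp hq with ⟨rfl, h4⟩ | h4
    · have h8 := hb.eight h4
      have h9 : jacobiSym ((2 : ℕ) : ℤ) b.natAbs = ZMod.χ₈ b.natAbs := by
        have := jacobiSym.at_two (Nat.odd_iff.mpr hbodd)
        exact_mod_cast this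
      rw [h9, ZMod.χ₈_nat_eq_if_mod_eight]
      have hb08 : b.natAbs % 8 = 1 ∨ b.natAbs % 8 = 7 := by omega
      rw [if_neg (by omega), if_pos hb08]
    · have hqodd : Odd q := by
        rcases h4 with rfl | h4
        · exact ⟨2, rfl⟩
        · exact h4.1.odd_of_ne_two h4.2.1
      rw [← J_recip hb.four hqodd]
      rcases h4 with rfl | h4
      · have h5' := hb.five
        apply J_prime_one Nat.prime_five
        · push_cast
          omega
        · rcases h5' with h | h
          · have : (b : ZMod 5) = 1 := by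
              have := (ZMod.intCast_eq_intCast_iff_dvd_sub b 1 5).mpr (by push_cast; omega)
              exact_mod_cast this
            rw [this]; exact ⟨1, by decide⟩
          · have : (b : ZMod 5) = 4 := by
              have := (ZMod.intCast_eq_intCast_iff_dvd_sub b 4 5).mpr (by push_cast; omega)
              exact_mod_cast this
            rw [this]; exact ⟨2, by decide⟩
      · have hqb : ¬ (q : ℤ) ∣ b := by
          intro h
          apply hqT
          exact Finset.mem_filter.mpr ⟨(mem_Rw hd).mpr (Or.inr h4), h⟩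
        exact J_prime_one h4.1 hqb (hb.loc1 q h4.1 h4.2.1 h4.2.2 hqb)

end

end Vale.Agent.P017.H735
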