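import Vale.Agent.P017.H735.Main

/-!
# Families satisfying the criterion
-/

namespace Vale.Agent.P017.H735

open Vale.Agent.P017.H185 Finset

/-- some diagonal perturbation of a matrix over `ZMod 2` is invertible -/
theorem exists_diag {n : Type*} [Fintype n] [DecidableEq n] (A : Matrix n n (ZMod 2)) :
    ∃ x : n → ZMod 2, (A + Matrix.diagonal x).det ≠ 0 := by
  by_contra hcon
  push Not at hcon
  have h1 : ∑ x : n → ZMod 2, (A + Matrix.diagonal x).det = 0 :=
    Finset.sum_eq_zero (fun x _ => hcon x)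
  have h2 : ∑ x : n → ZMod 2, (A + Matrix.diagonal x).det =
      ∑ σ : Equiv.Perm n, ((Equiv.Perm.sign σ : ℤ) : ZMod 2) *
        ∏ i, ∑ y : ZMod 2, (A (σ i) i + if σ i = i then y else 0) := by
    simp only [Matrix.det_apply']
    rw [Finset.sum_comm]
    apply Finset.sum_congr rfl
    intro σ _
    rw [← Finset.mul_sum]
    congr 1
    rw [Finset.prod_univ_sum, Fintype.piFinset_univ]
    apply Finset.sum_congr rfl
    intro x _
    apply Finset.prod_congr rfl
    intro i _
    rw [Matrix.add_apply, Matrix.diagonal_apply]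
    by_cases h : σ i = i
    · rw [if_pos h, if_pos h, h]
    · rw [if_neg h, if_neg h]
  have h3 : ∀ σ : Equiv.Perm n, σ ≠ 1 →
      ∏ i, ∑ y : ZMod 2, (A (σ i) i + if σ i = i then y else 0) = 0 := by
    intro σ hσ
    obtain ⟨i, hi⟩ : ∃ i, σ i ≠ i := by
      by_contra hc
      push Not at hc
      exact hσ (Equiv.ext hc)
    apply Finset.prod_eq_zero (Finset.mem_univ i)
    simp only [if_neg hi, add_zero]
    rw [Finset.sum_const, Finset.card_univ, ZMod.card]
    generalize A (σ i) i = a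
    revert a; decide
  have h4 : ∏ i, ∑ y : ZMod 2, (A ((1 : Equiv.Perm n) i) i +
      if (1 : Equiv.Perm n) i = i then y else 0) = 1 := by
    apply Finset.prod_eq_one
    intro i _
    simp only [Equiv.Perm.one_apply, if_true]
    generalize A i i = a
    revert a; decide
  rw [h2, Finset.sum_eq_single (1 : Equiv.Perm n)
    (fun σ _ hσ => by rw [h3 σ hσ, mul_zero]) (fun h => absurd (Finset.mem_univ _) h), h4] at h1
  simp at h1

/-- the same for functions on a finite set of natural numbers -/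
theorem exists_diag' (O : Finset ℕ) (A : ℕ → ℕ → ZMod 2) :
    ∃ x : ℕ → ZMod 2, ∀ V : ℕ → ZMod 2,
      (∀ j ∈ O, ∑ i ∈ O, A j i * V i + x j * V j = 0) → ∀ i ∈ O, V i = 0 := by
  obtain ⟨x, hx⟩ := exists_diag (Matrix.of fun (j i : O) => A j i)
  refine ⟨fun j => if h : j ∈ O then x ⟨j, h⟩ else 0, ?_⟩
  intro V hV i hi
  have h1 : (Matrix.of (fun (j i : O) => A j i) + Matrix.diagonal x).mulVec (fun i : O => V i) = 0 := by
    funext j
    rw [Matrix.add_mulVec, Pi.add_apply, Matrix.mulVec_diagonal, Pi.zero_apply]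
    have h2 := hV j.1 j.2
    simp only [j.2, dif_pos, Subtype.coe_eta] at h2
    rw [← h2]
    congr 1
    simp only [Matrix.mulVec, dotProduct, Matrix.of_apply]
    rw [Finset.sum_coe_sort O (fun i => A j i * V i)]
  have h3 := Matrix.eq_zero_of_mulVec_eq_zero hx h1
  exact congrFun h3 ⟨i, hi⟩

theorem chi_inj {x : ZMod 2} {s : ℤ} (h : s = chi x) : lg s = x := by
  rw [h]
  clear h
  revert x
  decide

theorem lg_mul {a b : ℤ} (ha : a = 1 ∨ a = -1) (hb : b = 1 ∨ b = -1) :
    lg (a * b) = lg a + lg b := by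
  rcases ha with rfl | rfl <;> rcases hb with rfl | rfl <;> decide

theorem row_eq {U S : Finset ℕ} (hS : S ⊆ U) {f : ℕ → ℤ} (hf : ∀ q ∈ U, f q = 1 ∨ f q = -1)
    {s : ℤ} (h : ∏ q ∈ S, f q = s) :
    ∑ q ∈ U, lg (f q) * (if q ∈ S then 1 else 0) = lg s := by
  symm
  apply chi_inj
  rw [← h, chi_sum]
  have h1 : ∀ q ∈ U, chi (lg (f q) * if q ∈ S then 1 else 0) = if q ∈ S then f q else 1 := by
    intro q hq
    by_cases hqS : q ∈ S
    · rw [if_pos hqS, if_pos hqS, mul_one, chi_lg (hf q hq)]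
    · rw [if_neg hqS, if_neg hqS, mul_zero, chi_zero]
  rw [Finset.prod_congr rfl h1, ← Finset.prod_filter]
  apply Finset.prod_congr _ (fun _ _ => rfl)
  ext q
  rw [Finset.mem_filter]
  exact ⟨fun h => ⟨hS h, h⟩, fun h => h.2⟩

/-- the local conditions in terms of the symbols -/
theorem row_loc {d c : ℕ} (hd : Squarefree d) (hc : Squarefree c) (h : LocN d c) {p : ℕ}
    (hp : p.Prime) (hp2 : p ≠ 2) (hpd : p ∣ d) : ∏ q ∈ c.primeFactors, sym d p q = 1 := by
  obtain ⟨h1, h2⟩ := h p hp hp2 hpd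
  have hcp : ∏ q ∈ c.primeFactors, q = c := Nat.prod_primeFactors_of_squarefree hc
  by_cases hpc : p ∣ c
  · have hpS : p ∈ c.primeFactors := Nat.mem_primeFactors.mpr ⟨hp, hpc, hc.ne_zero⟩
    have h3 := h2 hpc
    have hnd1 := ndvd_div hd hp hpd
    have hnd2 := ndvd_div hc hp hpc
    have h4 : jacobiSym ((d / p * (c / p) : ℕ) : ℤ) p = 1 := by
      apply J_prime_one hp
      · intro h
        have h' : p ∣ d / p * (c / p) := by exact_mod_cast h
        rcases (Nat.Prime.dvd_mul hp).mp h' with h | h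
        · exact hnd1 h
        · exact hnd2 h
      · exact_mod_cast h3
    rw [← h4, Nat.cast_mul, jacobiSym.mul_left, ← Finset.mul_prod_erase _ _ hpS]
    congr 1
    · unfold sym
      rw [if_pos rfl]
    · have e1 : c / p = ∏ q ∈ c.primeFactors.erase p, q := by
        apply Nat.div_eq_of_eq_mul_right hp.pos
        rw [Finset.mul_prod_erase _ (fun q => q) hpS, hcp]
      rw [e1, jac_prod_left]
      apply Finset.prod_congr rfl
      intro q hq
      unfold sym
      rw [if_neg (Finset.ne_of_mem_erase hq)]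
  · have h4 : jacobiSym (c : ℤ) p = 1 := by
      apply J_prime_one hp
      · exact_mod_cast hpc
      · exact_mod_cast h1 hpc
    rw [← h4]
    conv_rhs => rw [← hcp]
    rw [jac_prod_left]
    apply Finset.prod_congr rfl
    intro q hq
    unfold sym
    rw [if_neg]
    rintro rfl
    exact hpc (Nat.dvd_of_mem_primeFactors hq)

theorem jac_pm' {p q : ℕ} (hp : p.Prime) (hq : q.Prime) (h : q ≠ p) :
    jacobiSym (q : ℤ) p = 1 ∨ jacobiSym (q : ℤ) p = -1 := by
  apply jac_pm hp
  intro h1
  exact h ((Nat.prime_dvd_prime_iff_eq hp hq).mp h1).symm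

theorem lg_one : lg 1 = 0 := by decide

theorem J53 : jacobiSym ((5 : ℕ) : ℤ) 3 = -1 := by norm_num

theorem J3_one {c : ℕ} (h : c % 3 = 1) : jacobiSym (c : ℤ) 3 = 1 := by
  rw [jacobiSym.mod_left]
  have h4 : (c : ℤ) % ((3 : ℕ) : ℤ) = 1 := by push_cast; omega
  rw [h4]
  norm_num

/-- **Extension by one prime.**  For every odd squarefree `m` prime to `15` there is a choice of
signs such that `m p` satisfies the criterion for every prime `p` with these symbols. -/
theorem exists_signs {m : ℕ} (hm : Squarefree m) (h3 : ¬ 3 ∣ m) (h5 : ¬ 5 ∣ m) :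
    ∃ s : ℕ → ℤ, (∀ q, s q = 1 ∨ s q = -1) ∧ ∀ p : ℕ, p.Prime → p ≠ 3 → p ≠ 5 → ¬ p ∣ m →
      (m * p) % 4 = 3 → (m * p) % 3 = 1 → (∀ q ∈ m.primeFactors, jacobiSym (p : ℤ) q = s q) →
      Crit (m * p) := by
  obtain ⟨A, hA⟩ : ∃ A : ℕ → ℕ → ZMod 2, ∀ j i, A j i =
      (if i = j then lg (jacobiSym ((m / j : ℕ) : ℤ) j) else lg (jacobiSym (i : ℤ) j)) +
        lg (jacobiSym ((5 : ℕ) : ℤ) j) * lg (jacobiSym (i : ℤ) 3) := ⟨_, fun _ _ => rfl⟩
  obtain ⟨x, hx⟩ := exists_diag' m.primeFactors A
  refine ⟨fun q => chi (x q), fun q => ?_, ?_⟩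
  · rcases z2 (x q) with h | h
    · left
      show chi (x q) = 1
      rw [h]; decide
    · right
      show chi (x q) = -1
      rw [h]; decide
  intro p hp hp3 hp5 hpm h4 hd3 hs
  have hcop : Nat.Coprime m p := by
    rw [Nat.coprime_comm, Nat.Prime.coprime_iff_not_dvd hp]; exact hpm
  obtain ⟨d, hdd⟩ : ∃ d, d = m * p := ⟨_, rfl⟩
  have hd : Squarefree d := by
    rw [hdd, Nat.squarefree_mul hcop]; exact ⟨hm, hp.squarefree⟩
  rw [← hdd] at h4 hd3 ⊢
  intro c hc hc10 hc2 hc3 hloc
  have hc2' := hc2 h4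
  obtain ⟨O, hO⟩ : ∃ O, O = m.primeFactors := ⟨_, rfl⟩
  rw [← hO] at hx hs
  have hOp : ∀ q ∈ O, q.Prime := fun q hq => Nat.prime_of_mem_primeFactors (hO ▸ hq)
  have hOm : ∀ q ∈ O, q ∣ m := fun q hq => Nat.dvd_of_mem_primeFactors (hO ▸ hq)
  have hOd : ∀ q ∈ O, q ∣ d := fun q hq => by rw [hdd]; exact (hOm q hq).mul_right p
  have hpO : p ∉ O := fun h => hpm (hOm p h)
  have h5O : 5 ∉ O := fun h => h5 (hOm 5 h)
  have h3O : ∀ q ∈ O, q ≠ 3 := by
    rintro q hq rfl
    exact h3 (hOm 3 hq)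
  have h2O : ∀ q ∈ O, q ≠ 2 := by
    rintro q hq rfl
    have := hOd 2 hq
    omega
  have h5pO : 5 ∉ insert p O := by
    rw [Finset.mem_insert]
    rintro (h | h)
    · exact hp5 h.symm
    · exact h5O h
  have hprodO : ∏ q ∈ O, q = m := by rw [hO]; exact Nat.prod_primeFactors_of_squarefree hm
  obtain ⟨U, hU⟩ : ∃ U, U = insert 5 (insert p O) := ⟨_, rfl⟩
  have hUsum : ∀ g : ℕ → ZMod 2, ∑ q ∈ U, g q = g 5 + (g p + ∑ q ∈ O, g q) := by
    intro g
    rw [hU, Finset.sum_insert h5pO, Finset.sum_insert hpO]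
  have hUp : ∀ q ∈ U, q.Prime := by
    intro q hq
    rw [hU, Finset.mem_insert, Finset.mem_insert] at hq
    rcases hq with rfl | rfl | hq
    · exact Nat.prime_five
    · exact hp
    · exact hOp q hq
  have hU3 : ∀ q ∈ U, q ≠ 3 := by
    intro q hq
    rw [hU, Finset.mem_insert, Finset.mem_insert] at hq
    rcases hq with rfl | rfl | hq
    · norm_num
    · exact hp3
    · exact h3O q hq
  obtain ⟨S, hS⟩ : ∃ S, S = c.primeFactors := ⟨_, rfl⟩
  have hmemS : ∀ q, q ∈ S ↔ q.Prime ∧ q ∣ c := by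
    intro q
    rw [hS, Nat.mem_primeFactors_of_ne_zero hc.ne_zero]
  have hSU : S ⊆ U := by
    intro q hq
    obtain ⟨hq1, hq2⟩ := (hmemS q).mp hq
    rw [hU, Finset.mem_insert, Finset.mem_insert]
    have h6 := hq2.trans hc10
    rcases (Nat.Prime.dvd_mul hq1).mp h6 with h7 | h7
    · have h8 : q ∣ 2 * 5 := h7
      rcases (Nat.Prime.dvd_mul hq1).mp h8 with h9 | h9
      · exfalso
        rw [(Nat.prime_dvd_prime_iff_eq hq1 Nat.prime_two).mp h9] at hq2
        exact hc2' hq2
      · left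
        exact (Nat.prime_dvd_prime_iff_eq hq1 Nat.prime_five).mp h9
    · right
      rw [hdd] at h7
      rcases (Nat.Prime.dvd_mul hq1).mp h7 with h9 | h9
      · right
        rw [hO]; exact Nat.mem_primeFactors.mpr ⟨hq1, h9, hm.ne_zero⟩
      · left
        exact (Nat.prime_dvd_prime_iff_eq hq1 hp).mp h9
  have hprodS : ∏ q ∈ S, q = c := by rw [hS]; exact Nat.prod_primeFactors_of_squarefree hc
  obtain ⟨e, he⟩ : ∃ e : ℕ → ZMod 2, e = fun q => if q ∈ S then 1 else 0 := ⟨_, rfl⟩
  -- the row of three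
  have row3 : e 5 + (lg (jacobiSym (p : ℤ) 3) * e p + ∑ q ∈ O, lg (jacobiSym (q : ℤ) 3) * e q) = 0 := by
    have h6 := row_eq (f := fun q => jacobiSym (q : ℤ) 3) hSU
      (fun q hq => jac_pm' Nat.prime_three (hUp q hq) (hU3 q hq)) (s := 1) (by
        rw [← jac_prod_left, hprodS]; exact J3_one hc3)
    rw [hUsum, lg_one] at h6
    have h7 : lg (jacobiSym ((5 : ℕ) : ℤ) 3) = 1 := by rw [J53]; decide
    rw [h7, one_mul] at h6
    rw [he]
    exact h6
  have tot3 : lg (jacobiSym (p : ℤ) 3) + ∑ q ∈ O, lg (jacobiSym (q : ℤ) 3) = 0 := by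
    have h6 := row_eq (U := U) (S := insert p O) (f := fun q => jacobiSym (q : ℤ) 3)
      (by rw [hU]; exact Finset.subset_insert _ _)
      (fun q hq => jac_pm' Nat.prime_three (hUp q hq) (hU3 q hq)) (s := 1) (by
        rw [← jac_prod_left, Finset.prod_insert hpO, hprodO, mul_comm, ← hdd]; exact J3_one hd3)
    rw [hUsum, lg_one] at h6
    simp only [h5pO, if_false, mul_zero, zero_add, Finset.mem_insert_self, if_true, mul_one] at h6
    rw [← h6]
    congr 1
    apply Finset.sum_congr rfl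
    intro q hq
    rw [if_pos (Finset.mem_insert_of_mem hq), mul_one]
  -- the rows of the primes of m
  have rowj : ∀ j ∈ O, lg (jacobiSym ((5 : ℕ) : ℤ) j) * e 5 + (x j * e p +
      (∑ q ∈ O, (if q = j then lg (jacobiSym ((m / j : ℕ) : ℤ) j) else lg (jacobiSym (q : ℤ) j)) * e q +
        x j * e j)) = 0 := by
    intro j hj
    have hjp := hOp j hj
    have hpj : p ≠ j := by rintro rfl; exact hpO hj
    have h5j : (5 : ℕ) ≠ j := by rintro rfl; exact h5O hj
    have hsj : lg (jacobiSym (p : ℤ) j) = x j := chi_inj (hs j hj)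
    have hpm' := jac_pm' hjp hp hpj
    have hmj : ¬ j ∣ m / j := ndvd_div hm hjp (hOm j hj)
    have hmpm := jac_pm hjp hmj
    have hdj : d / j = (m / j) * p := by
      obtain ⟨k, hk⟩ := hOm j hj
      rw [hdd, hk, Nat.mul_div_cancel_left _ hjp.pos, mul_assoc, Nat.mul_div_cancel_left _ hjp.pos]
    have hsymj : sym d j j = jacobiSym ((m / j : ℕ) : ℤ) j * jacobiSym (p : ℤ) j := by
      unfold sym
      rw [if_pos rfl, hdj, Nat.cast_mul, jacobiSym.mul_left]
    have hsym : ∀ q, q ≠ j → sym d j q = jacobiSym (q : ℤ) j := by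
      intro q hq
      unfold sym
      rw [if_neg hq]
    have hf : ∀ q ∈ U, sym d j q = 1 ∨ sym d j q = -1 := by
      intro q hq
      by_cases hqj : q = j
      · rw [hqj, hsymj]
        rcases hpm' with h | h <;> rcases hmpm with h' | h' <;> rw [h, h'] <;> norm_num
      · rw [hsym q hqj]
        exact jac_pm' hjp (hUp q hq) hqj
    have h6 := row_eq (f := fun q => sym d j q) hSU hf (s := 1) (by
      rw [hS]; exact row_loc hd hc hloc hjp (h2O j hj) (hOd j hj))
    rw [hUsum, lg_one, hsym 5 h5j, hsym p hpj, hsj] at h6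
    have h7 : ∑ q ∈ O, lg (sym d j q) * (if q ∈ S then 1 else 0) =
        ∑ q ∈ O, (if q = j then lg (jacobiSym ((m / j : ℕ) : ℤ) j) else lg (jacobiSym (q : ℤ) j)) * e q +
        x j * e j := by
      rw [← Finset.add_sum_erase _ _ hj, ← Finset.add_sum_erase _ _ hj]
      rw [hsymj, lg_mul hmpm hpm', hsj, if_pos rfl, he]
      have h8 : ∑ q ∈ O.erase j, lg (sym d j q) * (if q ∈ S then (1 : ZMod 2) else 0) =
          ∑ q ∈ O.erase j, (if q = j then lg (jacobiSym ((m / j : ℕ) : ℤ) j)
            else lg (jacobiSym (q : ℤ) j)) * (if q ∈ S then 1 else 0) := by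
        apply Finset.sum_congr rfl
        intro q hq
        have := Finset.ne_of_mem_erase hq
        rw [hsym q this, if_neg this]
      rw [h8]
      ring
    rw [h7] at h6
    rw [he] at h6 ⊢
    exact h6
  have totj : ∀ j ∈ O, ∑ q ∈ O, (if q = j then lg (jacobiSym ((m / j : ℕ) : ℤ) j)
      else lg (jacobiSym (q : ℤ) j)) = 0 := by
    intro j hj
    have hjp := hOp j hj
    rw [← Finset.add_sum_erase _ _ hj, if_pos rfl]
    have h6 := row_eq (U := O.erase j) (S := O.erase j) (f := fun q => jacobiSym (q : ℤ) j)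
      (Finset.Subset.refl _)
      (fun q hq => jac_pm' hjp (hOp q (Finset.mem_of_mem_erase hq)) (Finset.ne_of_mem_erase hq))
      (s := jacobiSym ((m / j : ℕ) : ℤ) j) (by
        rw [← jac_prod_left]
        congr 2
        symm
        apply Nat.div_eq_of_eq_mul_right hjp.pos
        rw [Finset.mul_prod_erase _ (fun q => q) hj, hprodO])
    have h7 : ∑ q ∈ O.erase j, (if q = j then lg (jacobiSym ((m / j : ℕ) : ℤ) j)
        else lg (jacobiSym (q : ℤ) j)) =
        ∑ q ∈ O.erase j, lg (jacobiSym (q : ℤ) j) * (if q ∈ O.erase j then 1 else 0) := by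
      apply Finset.sum_congr rfl
      intro q hq
      rw [if_neg (Finset.ne_of_mem_erase hq), if_pos hq, mul_one]
    rw [h7, h6]
    generalize lg (jacobiSym ((m / j : ℕ) : ℤ) j) = y
    revert y; decide
  have h2z : ∀ y : ZMod 2, y + y = 0 := by decide
  -- the vector V
  have he5 : e 5 = ∑ q ∈ O, lg (jacobiSym (q : ℤ) 3) * (e q + e p) := by
    simp only [mul_add]
    rw [Finset.sum_add_distrib, ← Finset.sum_mul]
    have h7 : ∑ q ∈ O, lg (jacobiSym (q : ℤ) 3) = lg (jacobiSym (p : ℤ) 3) := by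
      have h8 := h2z (lg (jacobiSym (p : ℤ) 3))
      linear_combination tot3 - h8
    rw [h7]
    have h8 := h2z (∑ q ∈ O, lg (jacobiSym (q : ℤ) 3) * e q)
    have h9 := h2z (lg (jacobiSym (p : ℤ) 3) * e p)
    linear_combination row3 - h8 - h9
  have hV := hx (fun q => e q + e p) (by
    intro j hj
    have h6 := rowj j hj
    have h7 := totj j hj
    have e1 : ∑ i ∈ O, A j i * (e i + e p) =
        ∑ q ∈ O, (if q = j then lg (jacobiSym ((m / j : ℕ) : ℤ) j) else lg (jacobiSym (q : ℤ) j)) * e q +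
        (∑ q ∈ O, (if q = j then lg (jacobiSym ((m / j : ℕ) : ℤ) j)
          else lg (jacobiSym (q : ℤ) j))) * e p +
        lg (jacobiSym ((5 : ℕ) : ℤ) j) * ∑ q ∈ O, lg (jacobiSym (q : ℤ) 3) * (e q + e p) := by
      rw [Finset.sum_mul, Finset.mul_sum, ← Finset.sum_add_distrib, ← Finset.sum_add_distrib]
      apply Finset.sum_congr rfl
      intro q _
      rw [hA]
      ring
    rw [e1, h7, zero_mul, add_zero, ← he5]
    linear_combination h6)
  -- conclusion
  have h5S : e 5 = 0 := by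
    rw [he5]
    apply Finset.sum_eq_zero
    intro q hq
    rw [hV q hq, mul_zero]
  have h5S' : 5 ∉ S := by
    intro h
    rw [he] at h5S
    simp only [h, if_true] at h5S
    exact one_ne_zero h5S
  by_cases hpS : p ∈ S
  · right
    have hall : ∀ q ∈ O, q ∈ S := by
      intro q hq
      have h6 := hV q hq
      by_contra hqS
      rw [he] at h6
      simp only [hpS, hqS, if_true, if_false, zero_add] at h6
      exact one_ne_zero h6
    have hSeq : S = insert p O := by
      apply Finset.Subset.antisymm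
      · intro q hq
        have := hSU hq
        rw [hU, Finset.mem_insert] at this
        rcases this with rfl | h
        · exact absurd hq h5S'
        · exact h
      · intro q hq
        rw [Finset.mem_insert] at hq
        rcases hq with rfl | h
        · exact hpS
        · exact hall q h
    rw [← hprodS, hSeq, Finset.prod_insert hpO, hprodO, hdd, mul_comm]
  · left
    have hall : ∀ q ∈ O, q ∉ S := by
      intro q hq hqS
      have h6 := hV q hq
      rw [he] at h6
      simp only [hpS, hqS, if_true, if_false, add_zero] at h6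
      exact one_ne_zero h6
    have hSeq : S = ∅ := by
      rw [Finset.eq_empty_iff_forall_notMem]
      intro q hq
      have := hSU hq
      rw [hU, Finset.mem_insert, Finset.mem_insert] at this
      rcases this with rfl | rfl | h
      · exact h5S' hq
      · exact hpS hq
      · exact hall q h hq
    rw [← hprodS, hSeq, Finset.prod_empty]

end Vale.Agent.P017.H735
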