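import Mathlib

/-!
# Linear algebra over `ZMod 2` for the two Selmer conditions
-/

namespace Vale.Agent.P017.H735

open Matrix Finset

/-- the nontrivial additive character of `ZMod 2` with integer values -/
def chi (x : ZMod 2) : ℤ := if x = 0 then 1 else -1

theorem chi_zero : chi 0 = 1 := by decide

theorem chi_add (x y : ZMod 2) : chi (x + y) = chi x * chi y := by
  revert x y; decide

theorem chi_eq_one {x : ZMod 2} : chi x = 1 ↔ x = 0 := by
  revert x; decide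

theorem chi_sum {ι : Type*} (s : Finset ι) (f : ι → ZMod 2) :
    chi (∑ i ∈ s, f i) = ∏ i ∈ s, chi (f i) := by
  classical
  induction s using Finset.induction_on with
  | empty => simp [chi_zero]
  | insert a s ha ih => rw [Finset.sum_insert ha, Finset.prod_insert ha, chi_add, ih]

/-- logarithm of a sign -/
def lg (s : ℤ) : ZMod 2 := if s = 1 then 0 else 1

theorem chi_lg {s : ℤ} (h : s = 1 ∨ s = -1) : chi (lg s) = s := by
  rcases h with rfl | rfl <;> decide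

theorem z2 (x : ZMod 2) : x = 0 ∨ x = 1 := by
  revert x; decide

theorem ker_big {V : Type*} [AddCommGroup V] [Module (ZMod 2) V] [FiniteDimensional (ZMod 2) V]
    (h : 2 ≤ Module.finrank (ZMod 2) V) (v0 : V) : ∃ v : V, v ≠ 0 ∧ v ≠ v0 := by
  by_contra hcon
  push Not at hcon
  have : Module.finrank (ZMod 2) V ≤ 1 := by
    refine finrank_le_one v0 (fun w => ?_)
    by_cases hw : w = 0
    · exact ⟨0, by rw [hw, zero_smul]⟩
    · exact ⟨1, by rw [one_smul, hcon w hw]⟩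
  omega

theorem finrank_ker_ge {m n : Type*} [Fintype m] [Fintype n] [DecidableEq m] [DecidableEq n]
    (A : Matrix m n (ZMod 2)) :
    Module.finrank (ZMod 2) (LinearMap.ker A.mulVecLin) + Fintype.card m =
      Module.finrank (ZMod 2) (LinearMap.ker Aᵀ.mulVecLin) + Fintype.card n := by
  have h1 := LinearMap.finrank_range_add_finrank_ker A.mulVecLin
  have h2 := LinearMap.finrank_range_add_finrank_ker Aᵀ.mulVecLin
  have h3 := Matrix.rank_transpose A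
  unfold Matrix.rank at h3
  rw [Module.finrank_fintype_fun_eq_card] at h1 h2
  omega

/-- one dependency between the rows, one more column than rows -/
theorem exists_ker_one {m n : Type*} [Fintype m] [Fintype n] [DecidableEq m] [DecidableEq n]
    (A : Matrix m n (ZMod 2)) (hc : Fintype.card n = Fintype.card m + 1) (u : m → ZMod 2)
    (hu : u ≠ 0) (hA : Aᵀ *ᵥ u = 0) (v0 : n → ZMod 2) :
    ∃ v : n → ZMod 2, A *ᵥ v = 0 ∧ v ≠ 0 ∧ v ≠ v0 := by
  have h1 := finrank_ker_ge A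
  have h2 : 0 < Module.finrank (ZMod 2) (LinearMap.ker Aᵀ.mulVecLin) := by
    rw [Module.finrank_pos_iff_exists_ne_zero]
    refine ⟨⟨u, by rw [LinearMap.mem_ker]; exact hA⟩, ?_⟩
    intro h
    exact hu (congrArg Subtype.val h)
  have h3 : 2 ≤ Module.finrank (ZMod 2) (LinearMap.ker A.mulVecLin) := by omega
  by_cases hv0 : v0 ∈ LinearMap.ker A.mulVecLin
  · obtain ⟨v, hv, hv'⟩ := ker_big h3 ⟨v0, hv0⟩
    refine ⟨v.1, LinearMap.mem_ker.mp v.2, fun h => hv (Subtype.ext h), fun h => hv' (Subtype.ext h)⟩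
  · obtain ⟨v, hv, -⟩ := ker_big h3 0
    refine ⟨v.1, LinearMap.mem_ker.mp v.2, fun h => hv (Subtype.ext h), fun h => hv0 (h ▸ v.2)⟩

/-- two dependencies between the rows, square case -/
theorem exists_ker_two {m n : Type*} [Fintype m] [Fintype n] [DecidableEq m] [DecidableEq n]
    (A : Matrix m n (ZMod 2)) (hc : Fintype.card n = Fintype.card m) (u w : m → ZMod 2)
    (hu : u ≠ 0) (hw : w ≠ 0) (huw : u ≠ w) (hA : Aᵀ *ᵥ u = 0) (hB : Aᵀ *ᵥ w = 0)
    (v0 : n → ZMod 2) :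
    ∃ v : n → ZMod 2, A *ᵥ v = 0 ∧ v ≠ 0 ∧ v ≠ v0 := by
  have h1 := finrank_ker_ge A
  have h2 : 2 ≤ Module.finrank (ZMod 2) (LinearMap.ker Aᵀ.mulVecLin) := by
    by_contra hcon
    push Not at hcon
    obtain ⟨u', hu'⟩ : ∃ u' : LinearMap.ker Aᵀ.mulVecLin, u'.1 = u :=
      ⟨⟨u, by rw [LinearMap.mem_ker]; exact hA⟩, rfl⟩
    obtain ⟨w', hw'⟩ : ∃ w' : LinearMap.ker Aᵀ.mulVecLin, w'.1 = w :=
      ⟨⟨w, by rw [LinearMap.mem_ker]; exact hB⟩, rfl⟩
    have hu0 : u' ≠ 0 := by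
      rintro rfl
      exact hu hu'.symm
    have hpos : 0 < Module.finrank (ZMod 2) (LinearMap.ker Aᵀ.mulVecLin) :=
      Module.finrank_pos_iff_exists_ne_zero.2 ⟨u', hu0⟩
    obtain ⟨c, hc'⟩ := exists_smul_eq_of_finrank_eq_one
      (le_antisymm (Nat.lt_succ_iff.mp hcon) hpos) hu0 w'
    have hc2 : c • u = w := by
      rw [← hu', ← hw', ← hc']; rfl
    rcases z2 c with rfl | rfl
    · exact hw (by rw [← hc2, zero_smul])
    · exact huw (by rw [← hc2, one_smul])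
  have h3 : 2 ≤ Module.finrank (ZMod 2) (LinearMap.ker A.mulVecLin) := by omega
  by_cases hv0 : v0 ∈ LinearMap.ker A.mulVecLin
  · obtain ⟨v, hv, hv'⟩ := ker_big h3 ⟨v0, hv0⟩
    refine ⟨v.1, LinearMap.mem_ker.mp v.2, fun h => hv (Subtype.ext h), fun h => hv' (Subtype.ext h)⟩
  · obtain ⟨v, hv, -⟩ := ker_big h3 0
    refine ⟨v.1, LinearMap.mem_ker.mp v.2, fun h => hv (Subtype.ext h), fun h => hv0 (h ▸ v.2)⟩

/-- the subset attached to a vector -/
def supp (C : Finset ℕ) (v : C → ZMod 2) : Finset ℕ :=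
  C.filter (fun q => ∃ h : q ∈ C, v ⟨q, h⟩ = 1)

/-- the indicator vector of a subset -/
def ind (C S : Finset ℕ) : C → ZMod 2 := fun q => if q.1 ∈ S then 1 else 0

theorem mem_supp {C : Finset ℕ} {v : C → ZMod 2} (q : C) : q.1 ∈ supp C v ↔ v q = 1 := by
  unfold supp
  rw [Finset.mem_filter]
  constructor
  · rintro ⟨_, _, h⟩
    exact h
  · intro h
    exact ⟨q.2, q.2, h⟩

theorem ind_supp {C : Finset ℕ} (v : C → ZMod 2) : ind C (supp C v) = v := by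
  funext q
  unfold ind
  by_cases h : q.1 ∈ supp C v
  · rw [if_pos h, (mem_supp q).mp h]
  · rw [if_neg h]
    rcases z2 (v q) with h0 | h1
    · exact h0.symm
    · exact absurd ((mem_supp q).mpr h1) h

theorem chi_dot (C S : Finset ℕ) (hS : S ⊆ C) (f : ℕ → ℤ) (hf : ∀ q ∈ C, f q = 1 ∨ f q = -1) :
    chi (∑ q : C, lg (f q.1) * ind C S q) = ∏ q ∈ S, f q := by
  rw [chi_sum]
  have h1 : ∀ q : C, chi (lg (f q.1) * ind C S q) = if q.1 ∈ S then f q.1 else 1 := by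
    intro q
    unfold ind
    by_cases h : q.1 ∈ S
    · rw [if_pos h, if_pos h, mul_one, chi_lg (hf q.1 q.2)]
    · rw [if_neg h, if_neg h, mul_zero, chi_zero]
  rw [Finset.prod_congr rfl (fun q _ => h1 q)]
  rw [Finset.prod_coe_sort C (fun q => if q ∈ S then f q else 1), ← Finset.prod_filter]
  apply Finset.prod_congr _ (fun _ _ => rfl)
  ext q
  rw [Finset.mem_filter]
  exact ⟨fun h => h.2, fun h => ⟨hS h, h⟩⟩

theorem ind_ne {C S S' : Finset ℕ} (hS : S ⊆ C) (hS' : S' ⊆ C) (h : S ≠ S') :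
    ind C S ≠ ind C S' := by
  intro h1
  apply h
  ext q
  by_cases hq : q ∈ C
  · have h2 := congrFun h1 ⟨q, hq⟩
    unfold ind at h2
    by_cases h3 : q ∈ S
    · by_cases h4 : q ∈ S'
      · exact ⟨fun _ => h4, fun _ => h3⟩
      · simp only [h3, h4, if_true, if_false] at h2
        exact absurd h2 one_ne_zero
    · by_cases h4 : q ∈ S'
      · simp only [h3, h4, if_true, if_false] at h2
        exact absurd h2.symm one_ne_zero
      · exact ⟨fun h => absurd h h3, fun h => absurd h h4⟩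
  · exact ⟨fun h => absurd (hS h) hq, fun h => absurd (hS' h) hq⟩

theorem ind_empty (C : Finset ℕ) : ind C ∅ = 0 := by
  funext q
  unfold ind
  simp

/-- the symbol matrix -/
def mat (R C : Finset ℕ) (s : ℕ → ℕ → ℤ) : Matrix R C (ZMod 2) :=
  Matrix.of fun p q => lg (s p.1 q.1)

theorem mat_left {R C T : Finset ℕ} {s : ℕ → ℕ → ℤ} (hT : T ⊆ R)
    (hs : ∀ p ∈ R, ∀ q ∈ C, s p q = 1 ∨ s p q = -1) (h : ∀ q ∈ C, ∏ p ∈ T, s p q = 1) :
    (mat R C s)ᵀ *ᵥ ind R T = 0 := by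
  funext q
  rw [Pi.zero_apply, ← chi_eq_one]
  have := chi_dot R T hT (fun p => s p q.1) (fun p hp => hs p hp q.1 q.2)
  rw [h q.1 q.2] at this
  exact this

theorem mat_right {R C : Finset ℕ} {s : ℕ → ℕ → ℤ}
    (hs : ∀ p ∈ R, ∀ q ∈ C, s p q = 1 ∨ s p q = -1) {v : C → ZMod 2}
    (hv : mat R C s *ᵥ v = 0) : ∀ p ∈ R, ∏ q ∈ supp C v, s p q = 1 := by
  intro p hp
  rw [← chi_dot C (supp C v) (Finset.filter_subset _ _) (fun q => s p q)
    (fun q hq => hs p hp q hq), chi_eq_one, ind_supp]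
  exact congrFun hv ⟨p, hp⟩

theorem mat_concl {R C : Finset ℕ} {s : ℕ → ℕ → ℤ}
    (hs : ∀ p ∈ R, ∀ q ∈ C, s p q = 1 ∨ s p q = -1) {S0 : Finset ℕ} (hS0 : S0 ⊆ C)
    (h : ∃ v : C → ZMod 2, mat R C s *ᵥ v = 0 ∧ v ≠ 0 ∧ v ≠ ind C S0) :
    ∃ S ⊆ C, S ≠ ∅ ∧ S ≠ S0 ∧ ∀ p ∈ R, ∏ q ∈ S, s p q = 1 := by
  obtain ⟨v, hv, hv0, hv1⟩ := h
  refine ⟨supp C v, Finset.filter_subset _ _, ?_, ?_, mat_right hs hv⟩
  · intro h
    apply hv0
    rw [← ind_supp v, h, ind_empty]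
  · intro h
    apply hv1
    rw [← ind_supp v, h]

/-- **Duality, one more column than rows.** -/
theorem fin_one {R C T : Finset ℕ} {s : ℕ → ℕ → ℤ}
    (hs : ∀ p ∈ R, ∀ q ∈ C, s p q = 1 ∨ s p q = -1) (hc : C.card = R.card + 1) (hT : T ⊆ R)
    (hT0 : T ≠ ∅) (h : ∀ q ∈ C, ∏ p ∈ T, s p q = 1) {S0 : Finset ℕ} (hS0 : S0 ⊆ C) :
    ∃ S ⊆ C, S ≠ ∅ ∧ S ≠ S0 ∧ ∀ p ∈ R, ∏ q ∈ S, s p q = 1 := by
  refine mat_concl hs hS0 (exists_ker_one _ ?_ (ind R T) ?_ (mat_left hT hs h) _)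
  · rw [Fintype.card_coe, Fintype.card_coe]; exact hc
  · rw [← ind_empty R]
    exact ind_ne hT (Finset.empty_subset _) hT0

/-- **Duality, square case.** -/
theorem fin_two {R C T T' : Finset ℕ} {s : ℕ → ℕ → ℤ}
    (hs : ∀ p ∈ R, ∀ q ∈ C, s p q = 1 ∨ s p q = -1) (hc : C.card = R.card) (hT : T ⊆ R)
    (hT0 : T ≠ ∅) (h : ∀ q ∈ C, ∏ p ∈ T, s p q = 1) (hT' : T' ⊆ R) (hT0' : T' ≠ ∅)
    (h' : ∀ q ∈ C, ∏ p ∈ T', s p q = 1) (hTT : T ≠ T') {S0 : Finset ℕ} (hS0 : S0 ⊆ C) :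
    ∃ S ⊆ C, S ≠ ∅ ∧ S ≠ S0 ∧ ∀ p ∈ R, ∏ q ∈ S, s p q = 1 := by
  refine mat_concl hs hS0 (exists_ker_two _ ?_ (ind R T) (ind R T') ?_ ?_ (ind_ne hT hT' hTT)
    (mat_left hT hs h) (mat_left hT' hs h') _)
  · rw [Fintype.card_coe, Fintype.card_coe]; exact hc
  · rw [← ind_empty R]
    exact ind_ne hT (Finset.empty_subset _) hT0
  · rw [← ind_empty R]
    exact ind_ne hT' (Finset.empty_subset _) hT0'

end Vale.Agent.P017.H735
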