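import Vale.Agent.P017.H735.Dual

/-!
# The criterion when `3` is inert and `5` splits
-/

namespace Vale.Agent.P017.H735

open Vale.Agent.P017.H185

section

variable {d : ℕ}

theorem sq_of_jac {p : ℕ} (hp : p.Prime) {a : ℕ} (ha : ¬ p ∣ a)
    (h : jacobiSym (a : ℤ) p = 1) : IsSquare (a : ZMod p) := by
  have := Fact.mk hp
  rw [← jacobiSym.legendreSym.to_jacobiSym] at h
  have h0 : ((a : ℤ) : ZMod p) ≠ 0 := by
    rw [Ne, ZMod.intCast_zmod_eq_zero_iff_dvd]
    exact_mod_cast ha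
  have := (legendreSym.eq_one_iff p h0).mp h
  simpa using this

theorem mod3_of_jac {c : ℕ} (h3 : ¬ 3 ∣ c) (h : jacobiSym (c : ℤ) 3 = 1) : c % 3 = 1 := by
  by_contra hcon
  have h2 : (c : ℤ) % 3 = 2 := by omega
  rw [jacobiSym.mod_left] at h
  have h4 : (c : ℤ) % ((3 : ℕ) : ℤ) = 2 := by push_cast; exact h2
  rw [h4] at h
  have : jacobiSym 2 3 = -1 := by norm_num
  rw [this] at h
  norm_num at h

theorem dual (hd : Squarefree d) (h3 : d % 3 = 1) (h5 : d % 5 = 1 ∨ d % 5 = 4) (hC : Crit d)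
    {b : ℤ} (hb : Sel d b) : b = 1 ∨ (d % 4 = 3 ∧ b = -(d : ℤ)) := by
  by_contra hcon
  push Not at hcon
  obtain ⟨hb1, hbd⟩ := hcon
  have hpm : ∀ p ∈ Rw d, ∀ q ∈ Cl d, sym d p q = 1 ∨ sym d p q = -1 :=
    fun p hp q hq => sym_pm hd hp hq h3
  have h3O : 3 ∉ Od d := by
    rw [mem_Od hd]; rintro ⟨_, _, h⟩; omega
  have h5O : 5 ∉ Od d := by
    rw [mem_Od hd]; rintro ⟨_, _, h⟩; omega
  have h2O : 2 ∉ insert 5 (Od d) := by
    rw [Finset.mem_insert, mem_Od hd]; rintro (h | ⟨_, h, _⟩)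
    · norm_num at h
    · exact h rfl
  have hT0 : Tb d b ≠ ∅ := by
    intro h
    have h1 := prod_Tb hd hb
    rw [h, Finset.prod_empty] at h1
    have h2 := hb.four
    apply hb1
    omega
  have hS0 : d.primeFactors ⊆ Cl d := by
    intro q hq
    rw [Nat.mem_primeFactors_of_ne_zero hd.ne_zero] at hq
    rw [mem_Cl hd]
    by_cases h2 : q = 2
    · left
      subst h2
      exact ⟨rfl, by omega⟩
    · right; right
      exact ⟨hq.1, h2, hq.2⟩
  have key : ∃ S ⊆ Cl d, S ≠ ∅ ∧ S ≠ d.primeFactors ∧ ∀ p ∈ Rw d, ∏ q ∈ S, sym d p q = 1 := by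
    by_cases h4 : d % 4 = 3
    · have hn := sel_neg hd h5 h4
      refine fin_two hpm ?_ (Finset.filter_subset _ _) hT0
        (fun q hq => left_ker hd h3 h5 hb hq) (Finset.filter_subset _ _ : Tb d (-(d : ℤ)) ⊆ Rw d) ?_
        (fun q hq => left_ker hd h3 h5 hn hq) ?_ hS0
      · unfold Cl Rw
        rw [if_pos h4, Finset.card_insert_of_notMem h3O, Finset.card_insert_of_notMem h5O]
      · intro h
        have h1 := prod_Tb hd hn
        have h' : Tb d (-(d : ℤ)) = ∅ := h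
        rw [h', Finset.prod_empty] at h1
        omega
      · intro h
        exact hbd h4 (Tb_inj hd hb hn h)
    · refine fin_one hpm ?_ (Finset.filter_subset _ _) hT0
        (fun q hq => left_ker hd h3 h5 hb hq) hS0
      unfold Cl Rw
      rw [if_neg h4, Finset.card_insert_of_notMem h3O, Finset.card_insert_of_notMem h2O,
        Finset.card_insert_of_notMem h5O]
  obtain ⟨S, hS, hSe, hSd, hrow⟩ := key
  have hprime : ∀ q ∈ S, q.Prime := fun q hq => prime_Cl hd (hS hq)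
  obtain ⟨c, hc⟩ : ∃ c, c = ∏ q ∈ S, q := ⟨_, rfl⟩
  have hcS : ∀ {p : ℕ}, p.Prime → (p ∣ c ↔ p ∈ S) := by
    intro p hp
    rw [hc]; exact dvd_prod_iff hprime hp
  have hcsq : Squarefree c := by rw [hc]; exact sqf_prod S hprime
  have hc10 : c ∣ 10 * d := by
    rw [hc]
    apply Finset.prod_primes_dvd
    · intro q hq; exact (hprime q hq).prime
    · intro q hq
      rcases (mem_Cl hd).mp (hS hq) with ⟨rfl, _⟩ | rfl | h
      · exact ⟨5 * d, by ring⟩
      · exact ⟨2 * d, by ring⟩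
      · exact h.2.2.mul_left _
  have hc2 : d % 4 = 3 → ¬ 2 ∣ c := by
    intro h4 h2
    rw [hcS Nat.prime_two] at h2
    rcases (mem_Cl hd).mp (hS h2) with ⟨_, h⟩ | h | h
    · exact h h4
    · norm_num at h
    · exact h.2.1 rfl
  have h3c : ¬ 3 ∣ c := by
    rw [hcS Nat.prime_three]
    intro h
    rcases (mem_Cl hd).mp (hS h) with ⟨h, _⟩ | h | h
    · norm_num at h
    · norm_num at h
    · omega
  have hc3 : c % 3 = 1 := by
    apply mod3_of_jac h3c
    rw [hc, jac_prod_left, ← hrow 3 ((mem_Rw hd).mpr (Or.inl rfl))]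
    apply Finset.prod_congr rfl
    intro q hq
    unfold sym
    rw [if_neg]
    rintro rfl
    exact h3c ((hcS Nat.prime_three).mpr hq)
  have hloc : LocN d c := by
    intro p hp hp2 hpd
    have hr := hrow p ((mem_Rw hd).mpr (Or.inr ⟨hp, hp2, hpd⟩))
    constructor
    · intro hpc
      apply sq_of_jac hp hpc
      rw [hc, jac_prod_left, ← hr]
      apply Finset.prod_congr rfl
      intro q hq
      unfold sym
      rw [if_neg]
      rintro rfl
      exact hpc ((hcS hp).mpr hq)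
    · intro hpc
      have hpS := (hcS hp).mp hpc
      apply sq_of_jac hp
      · intro h
        rcases (Nat.Prime.dvd_mul hp).mp h with h | h
        · exact ndvd_div hd hp hpd h
        · exact ndvd_div hcsq hp hpc h
      · rw [Nat.cast_mul, jacobiSym.mul_left, ← hr, ← Finset.mul_prod_erase _ _ hpS]
        congr 1
        · unfold sym
          rw [if_pos rfl]
        · have e1 : c / p = ∏ q ∈ S.erase p, q := by
            apply Nat.div_eq_of_eq_mul_right hp.pos
            rw [Finset.mul_prod_erase _ (fun q => q) hpS, hc]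
          rw [e1, jac_prod_left]
          apply Finset.prod_congr rfl
          intro q hq
          unfold sym
          rw [if_neg (Finset.ne_of_mem_erase hq)]
  rcases hC c hcsq hc10 hc2 hc3 hloc with h | h
  · apply hSe
    rw [← Nat.primeFactors_prod hprime, ← hc, h]
    exact Nat.primeFactors_one
  · apply hSd
    rw [← Nat.primeFactors_prod hprime, ← hc, h]

theorem cond1 (hd : Squarefree d) (h3 : d % 3 = 1) (hC : Crit d) : Cond1 (d : ℚ) := by
  have hdpos : 0 < d := Nat.pos_of_ne_zero hd.ne_zero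
  have hdQ : (0 : ℚ) < d := by exact_mod_cast hdpos
  intro x y h hx
  have hx20 : x - 20 * d ≠ 0 := by
    intro h0
    have hx' : x = 20 * d := by linarith
    rw [hx'] at h
    have : y ^ 2 = -(400 * (d : ℚ) ^ 3) := by rw [h]; ring
    have h3 : 0 < (d : ℚ) ^ 3 := by positivity
    nlinarith [sq_nonneg y]
  have hxpos : 0 < x := by
    rcases lt_or_gt_of_ne hx with hneg | hpos
    · exfalso
      have h3 : 0 < (x - 16 * d) * (x - 25 * d) := by nlinarith
      have h4 : y ^ 2 = x * ((x - 16 * d) * (x - 25 * d)) := by rw [h]; ring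
      nlinarith [sq_nonneg y]
    · exact hpos
  obtain ⟨b, M, e, hb, hMe, hM, he, hXb⟩ := exists_sqf hx
  obtain ⟨N, hN⟩ := exists_int_eq (Y := y) (α := -16 * (d : ℤ)) (β := -25 * (d : ℤ)) hb hM he hXb
    (by push_cast; rw [h]; ring)
  have hr0 : (M / e : ℚ) ≠ 0 := div_ne_zero (by exact_mod_cast hM) (by exact_mod_cast he)
  have hbpos : 0 < b := by
    have h3 : (0 : ℚ) < (M / e : ℚ) ^ 2 := by positivity
    have h4 : (0 : ℚ) < b := by
      rw [hXb] at hxpos
      exact pos_of_mul_pos_left hxpos h3.le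
    exact_mod_cast h4
  lift b to ℕ using hbpos.le
  have hbsq : Squarefree b := Int.squarefree_natCast.mp hb
  have h2b : d % 4 = 3 → ¬ 2 ∣ b := by
    intro h4 h2
    exact two_adic_first hb hMe (by omega) hN (by exact_mod_cast h2)
  have hprimes : ∀ p : ℕ, p.Prime → p ∣ b → p ∣ 10 * d := by
    intro p hp hpb
    have hpbZ : (p : ℤ) ∣ (b : ℤ) := Int.natCast_dvd_natCast.mpr hpb
    by_cases hpd : p ∣ d
    · exact hpd.mul_left _
    by_cases hp2 : p = 2
    · rw [hp2]; exact ⟨5 * d, by ring⟩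
    by_cases hp5 : p = 5
    · rw [hp5]; exact ⟨2 * d, by ring⟩
    exfalso
    apply prime_dvd_gen hp hb hMe hN hpbZ
    · intro h1
      rcases (Nat.prime_iff_prime_int.mp hp).dvd_or_dvd h1 with h1 | h1
      · rw [Int.dvd_neg] at h1
        have h3 : p ∣ 2 ^ 4 := by exact_mod_cast h1
        exact hp2 ((Nat.prime_dvd_prime_iff_eq hp Nat.prime_two).mp (hp.dvd_of_dvd_pow h3))
      · exact hpd (by exact_mod_cast h1)
    · intro h1
      rcases (Nat.prime_iff_prime_int.mp hp).dvd_or_dvd h1 with h1 | h1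
      · rw [Int.dvd_neg] at h1
        have h3 : p ∣ 5 ^ 2 := by exact_mod_cast h1
        exact hp5 ((Nat.prime_dvd_prime_iff_eq hp Nat.prime_five).mp (hp.dvd_of_dvd_pow h3))
      · exact hpd (by exact_mod_cast h1)
  have hb10 : b ∣ 10 * d := by
    have := sqf_dvd_of_primes hbsq (X := ((10 * d : ℕ) : ℤ))
      (fun p hp hpb => Int.natCast_dvd_natCast.mpr (hprimes p hp hpb))
    exact Int.natCast_dvd_natCast.mp this
  have h3b : ¬ 3 ∣ b := by
    intro h
    have := h.trans hb10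
    omega
  have hb3 : b % 3 = 1 := by
    have := first_three hMe (d := (d : ℤ)) (by omega) (by exact_mod_cast h3b) hN
    omega
  have hnorm : ((y / (M / e) / (x - 20 * d) : ℚ)) ^ 2 +
      d * ((b * (M / e) / (x - 20 * d) : ℚ)) ^ 2 = b := by
    obtain ⟨r, hr⟩ : ∃ r : ℚ, r = M / e := ⟨_, rfl⟩
    rw [← hr] at hXb hr0 ⊢
    push_cast at hXb
    obtain ⟨z, hz⟩ : ∃ z, z = x - 20 * d := ⟨_, rfl⟩
    rw [← hz] at hx20 ⊢
    have hy2 : y ^ 2 = b * r ^ 2 * (z ^ 2 - d * (b * r ^ 2)) := by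
      rw [h, hz, hXb]; ring
    field_simp
    rw [hy2]
    ring
  rcases hC b hbsq hb10 h2b hb3 (loc_of_norm hd hbsq hnorm) with h1 | h1
  · refine ⟨M / e, Or.inl ?_⟩
    rw [hXb, h1]; push_cast; ring
  · refine ⟨M / e, Or.inr ?_⟩
    rw [hXb, h1]; push_cast; ring

theorem z5 {x y : ℤ} : (x : ZMod 5) = (y : ZMod 5) ↔ x % 5 = y % 5 :=
  ZMod.intCast_eq_intCast_iff' x y 5

/-- the partner of a second Selmer element -/
theorem partner (hd : Squarefree d) (h3 : d % 3 = 1) (h5 : d % 5 = 1 ∨ d % 5 = 4) {b : ℤ}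
    (hb : Squarefree b) (hb3 : b ∣ 3 * d) (hfive : b % 5 = 1 ∨ b % 5 = 4)
    (hl1 : ∀ p : ℕ, p.Prime → p ≠ 2 → p ∣ d → ¬ (p : ℤ) ∣ b → IsSquare (b : ZMod p))
    (hl2 : ∀ p : ℕ, p.Prime → p ≠ 2 → ∀ β δ : ℤ, b = p * β → (d : ℤ) = p * δ →
      IsSquare ((-(δ * β) : ℤ) : ZMod p))
    (h8 : ∀ b' : ℤ, (b * b' = -d ∨ b * b' = -(9 * d)) → b' % 8 = 1) :
    ∃ b' : ℤ, Sel d b' ∧ (b' = 1 → b = -(d : ℤ)) := by
  obtain ⟨k, β, f, hk, hbβ, hdf⟩ : ∃ k β f : ℤ, (k = 1 ∨ k = 3) ∧ b = k * β ∧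
      (d : ℤ) = β * f := by
    by_cases h : (3 : ℤ) ∣ b
    · obtain ⟨β, hβ⟩ := h
      obtain ⟨f, hf⟩ := hb3
      refine ⟨3, β, f, Or.inr rfl, hβ, ?_⟩
      apply mul_left_cancel₀ (show (3 : ℤ) ≠ 0 by norm_num)
      rw [hf, hβ]; ring
    · have hcop : IsCoprime b 3 := by
        rw [isCoprime_comm]
        exact (Irreducible.coprime_iff_not_dvd Int.prime_three.irreducible).mpr h
      obtain ⟨f, hf⟩ := hcop.dvd_of_dvd_mul_left hb3
      exact ⟨1, b, f, Or.inl rfl, by ring, hf⟩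
  have h3d : ¬ (3 : ℤ) ∣ d := by omega
  have hd0 : (d : ℤ) ≠ 0 := by exact_mod_cast hd.ne_zero
  have hb0 : b ≠ 0 := hb.ne_zero
  have hdsq : Squarefree (d : ℤ) := Int.squarefree_natCast.mpr hd
  have hfd : f ∣ (d : ℤ) := ⟨β, by rw [hdf]; ring⟩
  have hfsq : Squarefree f := hdsq.squarefree_of_dvd hfd
  have h3f : ¬ (3 : ℤ) ∣ f := fun h => h3d (h.trans hfd)
  have hprod : b * (-(k * f)) = -(k ^ 2 * d) := by rw [hbβ, hdf]; ring
  have hpk : ∀ p : ℕ, p.Prime → p ∣ d → ¬ (p : ℤ) ∣ k := by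
    intro p hp hpd hpk
    have h7 : (p : ℤ) ∣ 3 := by
      rcases hk with rfl | rfl
      · exact hpk.trans ⟨3, by norm_num⟩
      · exact hpk
    have h8 : p ∣ 3 := by exact_mod_cast h7
    have h9 := (Nat.prime_dvd_prime_iff_eq hp Nat.prime_three).mp h8
    subst h9
    omega
  refine ⟨-(k * f), ⟨?_, ?_, ?_, ?_, ?_, ?_, ?_⟩, ?_⟩
  · -- squarefree
    rw [← Int.squarefree_natAbs, Int.natAbs_neg, Int.natAbs_mul, Nat.squarefree_mul]
    · refine ⟨?_, Int.squarefree_natAbs.mpr hfsq⟩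
      rcases hk with rfl | rfl
      · exact squarefree_one
      · exact Nat.prime_three.squarefree
    · rcases hk with rfl | rfl
      · exact Nat.coprime_one_left _
      · have : ¬ 3 ∣ f.natAbs := by
          intro h
          exact h3f (Int.natCast_dvd.mpr h)
        exact (Nat.Prime.coprime_iff_not_dvd Nat.prime_three).mpr this
  · rcases hk with rfl | rfl
    · exact ⟨-3 * β, by rw [hdf]; ring⟩
    · exact ⟨-β, by rw [hdf]; ring⟩
  · have key : ∀ b b' d k : ZMod 5, (b = 1 ∨ b = 4) → (d = 1 ∨ d = 4) → (k = 1 ∨ k = 3) →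
        b * b' = -(k ^ 2 * d) → (b' = 1 ∨ b' = 4) := by decide
    have h7 := congrArg (Int.cast : ℤ → ZMod 5) hprod
    have e1 : ((1 : ℤ) : ZMod 5) = 1 := by norm_num
    have e4 : ((4 : ℤ) : ZMod 5) = 4 := by norm_num
    have hbz : (b : ZMod 5) = 1 ∨ (b : ZMod 5) = 4 := by
      rcases hfive with h | h
      · left; rw [← e1, z5]; omega
      · right; rw [← e4, z5]; omega
    have hdz : ((d : ℤ) : ZMod 5) = 1 ∨ ((d : ℤ) : ZMod 5) = 4 := by
      rcases h5 with h | h
      · left; rw [← e1, z5]; omega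
      · right; rw [← e4, z5]; omega
    have hkz : (k : ZMod 5) = 1 ∨ (k : ZMod 5) = 3 := by
      rcases hk with rfl | rfl
      · left; norm_num
      · right; norm_num
    have h9 := key b ((-(k * f) : ℤ) : ZMod 5) ((d : ℤ) : ZMod 5) k hbz hdz hkz (by
      rw [← Int.cast_mul, h7]; push_cast; ring)
    rcases h9 with h | h
    · left; rw [← e1, z5] at h; omega
    · right; rw [← e4, z5] at h; omega
  · have := h8 (-(k * f)) (by
      rw [hprod]
      rcases hk with rfl | rfl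
      · left; ring
      · right; ring)
    omega
  · intro _
    exact h8 (-(k * f)) (by
      rw [hprod]
      rcases hk with rfl | rfl
      · left; ring
      · right; ring)
  · intro p hp hp2 hpd hpb'
    have := Fact.mk hp
    have hp' : Prime (p : ℤ) := Nat.prime_iff_prime_int.mp hp
    obtain ⟨δ, hδ⟩ : (p : ℤ) ∣ d := by exact_mod_cast hpd
    have hpf : ¬ (p : ℤ) ∣ f := fun h => hpb' (Int.dvd_neg.mpr (h.mul_left k))
    have hpβ : (p : ℤ) ∣ β := by
      have : (p : ℤ) ∣ β * f := by rw [← hdf]; exact ⟨δ, hδ⟩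
      exact (hp'.dvd_or_dvd this).resolve_right hpf
    obtain ⟨β₁, hβ₁⟩ : (p : ℤ) ∣ b := by rw [hbβ]; exact hpβ.mul_left k
    obtain ⟨z, hz⟩ := hl2 p hp hp2 β₁ δ hβ₁ hδ
    have hβ0 : (β₁ : ZMod p) ≠ 0 := ne_iff.mpr (not_dvd_of_sqf hp hb hβ₁)
    have h7 : β₁ * (-(k * f)) = -(k ^ 2 * δ) := by
      apply mul_left_cancel₀ hp'.ne_zero
      rw [hβ₁, hδ] at hprod
      linear_combination hprod
    have h9 := congrArg (Int.cast : ℤ → ZMod p) h7
    push_cast at h9 hz ⊢
    refine ⟨k * z / β₁, ?_⟩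
    field_simp
    linear_combination (β₁ : ZMod p) * h9 + (k : ZMod p) ^ 2 * hz
  · intro p hp hp2 β' δ hβ' hδ
    have := Fact.mk hp
    have hp' : Prime (p : ℤ) := Nat.prime_iff_prime_int.mp hp
    have hpd : p ∣ d := by
      have : (p : ℤ) ∣ d := ⟨δ, hδ⟩
      exact_mod_cast this
    have hδ' : ¬ (p : ℤ) ∣ δ := not_dvd_of_sqf hp hdsq hδ
    have h7 : b * β' = -(k ^ 2 * δ) := by
      apply mul_left_cancel₀ hp'.ne_zero
      rw [hβ', hδ] at hprod
      linear_combination hprod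
    have hk' := hpk p hp hpd
    have hpb : ¬ (p : ℤ) ∣ b := by
      intro h
      have h8 : (p : ℤ) ∣ k ^ 2 * δ := by
        rw [← Int.dvd_neg, ← h7]; exact h.mul_right _
      rcases hp'.dvd_or_dvd h8 with h9 | h9
      · exact hk' (hp'.dvd_of_dvd_pow h9)
      · exact hδ' h9
    obtain ⟨z, hz⟩ := hl1 p hp hp2 hpd hpb
    have hk0 : (k : ZMod p) ≠ 0 := ne_iff.mpr hk'
    have h9 := congrArg (Int.cast : ℤ → ZMod p) h7
    push_cast at h9 ⊢
    refine ⟨z * β' / k, ?_⟩
    field_simp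
    linear_combination (-(β' : ZMod p)) * h9 + (β' : ZMod p) ^ 2 * hz
  · intro h
    rcases hk with rfl | rfl
    · have hf1 : f = -1 := by omega
      rw [hbβ, hdf, hf1]; ring
    · omega

theorem cond2 (hd : Squarefree d) (h3 : d % 3 = 1) (h5 : d % 5 = 1 ∨ d % 5 = 4)
    (hC : Crit d) : Cond2 (d : ℚ) := by
  intro X Y h hX
  obtain ⟨b, M, e, hb, hMe, hM, he, hXb⟩ := exists_sqf hX
  obtain ⟨N, hN⟩ := exists_int_eq (Y := Y) (α := (d : ℤ)) (β := 81 * (d : ℤ)) hb hM he hXb
    (by push_cast; rw [h])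
  have h3d : ¬ 3 ∣ d := by omega
  have hbprime : ∀ p : ℕ, p.Prime → (p : ℤ) ∣ b → (p : ℤ) ∣ ((3 * d : ℕ) : ℤ) := by
    intro p hp hpb
    by_contra hpd
    have hp3 : p ≠ 3 := by
      rintro rfl
      exact hpd (Int.natCast_dvd_natCast.mpr ⟨d, rfl⟩)
    have hpd' : ¬ (p : ℤ) ∣ (d : ℤ) := by
      intro h
      apply hpd
      rw [Int.natCast_dvd_natCast] at h ⊢
      exact h.mul_left 3
    apply prime_dvd_gen hp hb hMe hN hpb hpd'
    intro h2
    rcases (Nat.prime_iff_prime_int.mp hp).dvd_or_dvd h2 with h2 | h2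
    · have h4 : p ∣ 3 ^ 4 := by exact_mod_cast h2
      exact hp3 ((Nat.prime_dvd_prime_iff_eq hp Nat.prime_three).mp (hp.dvd_of_dvd_pow h4))
    · exact hpd' h2
  have hdsq : Squarefree (d : ℤ) := Int.squarefree_natCast.mpr hd
  have hbd : b ∣ 3 * (d : ℤ) := by
    have hsq : Squarefree b.natAbs := Int.squarefree_natAbs.mpr hb
    have := sqf_dvd_of_primes hsq (X := ((3 * d : ℕ) : ℤ))
      (fun p hp hpb => hbprime p hp (Int.natCast_dvd.mpr hpb))
    have h4 := Int.natAbs_dvd.mp this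
    push_cast at h4
    exact h4
  have h5b : ¬ (5 : ℤ) ∣ b := by
    intro h
    have := h.trans hbd
    omega
  have hfive := second_five hMe (d := (d : ℤ)) (by omega) h5b hN
  have hndsq : ∀ {p : ℕ} {c : ℤ}, p.Prime → (d : ℤ) = p * c → ¬ (p : ℤ) ∣ c := by
    intro p c hp hc
    exact not_dvd_of_sqf hp hdsq hc
  have hl1 : ∀ p : ℕ, p.Prime → p ≠ 2 → p ∣ d → ¬ (p : ℤ) ∣ b → IsSquare (b : ZMod p) := by
    intro p hp hp2 hpd hpb
    obtain ⟨δ, hδ⟩ : (p : ℤ) ∣ d := by exact_mod_cast hpd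
    exact sq_of_ndvd hp hMe hN hδ (hndsq hp hδ) hpb
  have hl2 : ∀ p : ℕ, p.Prime → p ≠ 2 → ∀ β δ : ℤ, b = p * β → (d : ℤ) = p * δ →
      IsSquare ((-(δ * β) : ℤ) : ZMod p) := by
    intro p hp _ β δ hβ hδ
    exact sq_of_dvd hp hb hMe hN hδ (hndsq hp hδ) hβ
  have hfin : b = 1 ∨ b = -(d : ℤ) := by
    have hdirect : b % 4 = 1 → (d % 4 ≠ 3 → b % 8 = 1) → b = 1 ∨ b = -(d : ℤ) := by
      intro h4 h8
      rcases dual hd h3 h5 hC ⟨hb, hbd, hfive, h4, h8, hl1, hl2⟩ with h | h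
      · exact Or.inl h
      · exact Or.inr h.2
    have hpartner : d % 4 ≠ 3 → (∀ b' : ℤ, (b * b' = -d ∨ b * b' = -(9 * d)) → b' % 8 = 1) →
        b = 1 ∨ b = -(d : ℤ) := by
      intro h4 h8
      obtain ⟨b', hb', h1⟩ := partner hd h3 h5 hb hbd hfive hl1 hl2 h8
      rcases dual hd h3 h5 hC hb' with h | h
      · exact Or.inr (h1 h)
      · exact absurd h.1 h4
    by_cases hd2 : d % 2 = 0
    · obtain ⟨δ, hδ⟩ : ∃ δ : ℤ, (d : ℤ) = 2 * δ := ⟨d / 2, by omega⟩
      have hδ2 : ¬ ((2 : ℕ) : ℤ) ∣ δ := hndsq Nat.prime_two (by push_cast; exact hδ)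
      have hδo : δ % 2 = 1 := by push_cast at hδ2; omega
      by_cases hb2 : b % 2 = 0
      · obtain ⟨β, hβ⟩ : ∃ β, b = 2 * β := ⟨b / 2, by omega⟩
        have hβ2 := not_dvd_of_sqf Nat.prime_two hb (by push_cast; exact hβ)
        have hβo : β % 2 = 1 := by push_cast at hβ2; omega
        have h8 := two_adic_even' hMe hβo hδo hδ hβ hN
        apply hpartner (by omega)
        intro b' hb'
        obtain ⟨k, hk⟩ := sq_mod8 hβo
        obtain ⟨j, hj⟩ : ∃ j, β + δ = 8 * j := ⟨(β + δ) / 8, by omega⟩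
        have hδj : δ = 8 * j - β := by linarith
        have h1 : β * b' = -δ ∨ β * b' = -(9 * δ) := by
          rcases hb' with h | h
          · left
            apply mul_left_cancel₀ (show (2 : ℤ) ≠ 0 by norm_num)
            rw [← mul_assoc, ← hβ, h, hδ]; ring
          · right
            apply mul_left_cancel₀ (show (2 : ℤ) ≠ 0 by norm_num)
            rw [← mul_assoc, ← hβ, h, hδ]; ring
        have h2 : ∃ m, b' = 8 * m + 1 := by
          rcases h1 with h1 | h1
          · refine ⟨k - j * β - k * b', ?_⟩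
            have h2 : (8 * k + 1) * b' = β * (-δ) := by rw [← hk, ← h1]; ring
            rw [hδj] at h2
            linear_combination h2 + hk
          · refine ⟨9 * k + 1 - 9 * j * β - k * b', ?_⟩
            have h2 : (8 * k + 1) * b' = β * (-(9 * δ)) := by rw [← hk, ← h1]; ring
            rw [hδj] at h2
            linear_combination h2 + 9 * hk
        omega
      · have h8 := two_adic_even hMe (by omega) hδo hδ hN
        exact hdirect (by omega) (fun _ => h8)
    · have hbo : b % 2 = 1 := by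
        by_contra hcon
        have h1 : ((2 : ℕ) : ℤ) ∣ b := by push_cast; omega
        have := hbprime 2 Nat.prime_two h1
        push_cast at this
        omega
      obtain ⟨hA, hB⟩ := two_adic_odd (d := (d : ℤ)) hMe hbo (by omega) hN
      by_cases hd3 : d % 4 = 3
      · exact hdirect (hA (by omega)) (fun h => absurd hd3 h)
      · rcases hB (by omega) with h8 | h8
        · exact hdirect (by omega) (fun _ => h8)
        · apply hpartner hd3
          intro b' hb'
          obtain ⟨k, hk⟩ := sq_mod8 hbo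
          obtain ⟨j, hj⟩ : ∃ j, b + d = 8 * j := ⟨(b + d) / 8, by omega⟩
          have hdj : (d : ℤ) = 8 * j - b := by linarith
          have h2 : ∃ m, b' = 8 * m + 1 := by
            rcases hb' with h1 | h1
            · refine ⟨k - j * b - k * b', ?_⟩
              have h2 : (8 * k + 1) * b' = b * (-d) := by rw [← hk, ← h1]; ring
              rw [hdj] at h2
              linear_combination h2 + hk
            · refine ⟨9 * k + 1 - 9 * j * b - k * b', ?_⟩
              have h2 : (8 * k + 1) * b' = b * (-(9 * d)) := by rw [← hk, ← h1]; ring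
              rw [hdj] at h2
              linear_combination h2 + 9 * hk
          omega
  refine ⟨M / e, ?_⟩
  rcases hfin with h1 | h1
  · left; rw [hXb, h1]; push_cast; ring
  · right; rw [hXb, h1]; push_cast; ring

/-- **The criterion.** -/
theorem finite_of_crit (hd : Squarefree d) (h3 : d % 3 = 1) (h5 : d % 5 = 1 ∨ d % 5 = 4)
    (hC : Crit d) {K : Type*} [Field K] [NumberField K] [Algebra.IsQuadraticExtension ℚ K] {θ : K}
    (hθ : θ ^ 2 = -(d : K)) : Finite (X015.baseChange K).toAffine.Point := by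
  obtain ⟨q⟩ := exists_QF_of_sqrt hd hθ
  have hd0 : (d : ℚ) ≠ 0 := by exact_mod_cast hd.ne_zero
  exact finite_X015 K (finite_EK q finite_EQ' (finite_ED hd0 (cond1 hd h3 hC) (cond2 hd h3 h5 hC)))

end

end Vale.Agent.P017.H735
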